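import Vale.Agent.N241.Defs
import Vale.Agent.P241.H122.Chains
import Mathlib.GroupTheory.Sylow

/-!
# Chains with cyclic `p`-quotients

* `Step`, `Ch` : the steps and the chains as an inductive predicate (`pChain_iff`);
* `Ch.map`, `ch_comap` : images and preimages;
* `isPGroup_core` : the quotient by the normal core of the start of a chain to `⊤` is a `p`-group;
* `exists_coprime` : if no chain joins `H` to `⊤`, a transitive `G`-set without fixed point has a
  number of `H`-fixed points prime to `p`.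
-/

namespace Vale.Agent.N241

open Subgroup MulAction
open Vale.Agent.P241

/-- There is a chain `H = c 0 ⊴ c 1 ⊴ ⋯ ⊴ c s = L`, each group normal in the next, whose quotients
are cyclic `p`-groups. -/
def PChain (p : ℕ) {G : Type} [Group G] (H L : Subgroup G) (s : ℕ) : Prop :=
  ∃ c : ℕ → Subgroup G, c 0 = H ∧ c s = L ∧ ∀ i < s, c i ≤ c (i + 1) ∧
    ∃ _ : ((c i).subgroupOf (c (i + 1))).Normal,
      IsCyclic (c (i + 1) ⧸ (c i).subgroupOf (c (i + 1))) ∧
        IsPGroup p (c (i + 1) ⧸ (c i).subgroupOf (c (i + 1)))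

variable {p : ℕ} {G : Type} [Group G]

theorem joins_iff {H L : Subgroup G} {s : ℕ} :
    Joins p H L s ↔ ∃ g : G, PChain p (H.map (MulAut.conj g).toMonoidHom) L s := by
  refine exists_congr fun g => exists_congr fun c => and_congr_left' ?_
  rw [SetLike.ext_iff]
  refine forall_congr' fun x => iff_congr Iff.rfl ?_
  rw [Subgroup.mem_map_equiv, MulAut.conj_symm_apply]

/-- one step of a chain -/
def Step (p : ℕ) (A B : Subgroup G) : Prop :=
  A ≤ B ∧ ∃ _ : (A.subgroupOf B).Normal,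
    IsCyclic (B ⧸ A.subgroupOf B) ∧ IsPGroup p (B ⧸ A.subgroupOf B)

theorem isPGroup_iff {A B : Subgroup G} [(A.subgroupOf B).Normal] :
    IsPGroup p (B ⧸ A.subgroupOf B) ↔ ∀ b ∈ B, ∃ k : ℕ, b ^ p ^ k ∈ A := by
  constructor
  · intro h b hb
    obtain ⟨k, hk⟩ := h (QuotientGroup.mk (⟨b, hb⟩ : B))
    rw [← QuotientGroup.mk_pow, QuotientGroup.eq_one_iff] at hk
    exact ⟨k, hk⟩
  · intro h y
    obtain ⟨b, rfl⟩ := QuotientGroup.mk_surjective y
    obtain ⟨k, hk⟩ := h b.1 b.2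
    refine ⟨k, ?_⟩
    rw [← QuotientGroup.mk_pow, QuotientGroup.eq_one_iff]
    exact hk

theorem step_iff {A B : Subgroup G} : Step p A B ↔
    (∃ x ∈ normalizer (A : Set G), B = A ⊔ zpowers x) ∧ ∀ b ∈ B, ∃ k : ℕ, b ^ p ^ k ∈ A := by
  rw [H122.step_iff]
  constructor
  · rintro ⟨h1, h2, h3, h4⟩
    exact ⟨⟨h1, h2, h3⟩, isPGroup_iff.1 h4⟩
  · rintro ⟨⟨h1, h2, h3⟩, h4⟩
    exact ⟨h1, h2, h3, isPGroup_iff.2 h4⟩

theorem Step.refl (A : Subgroup G) : Step p A A :=
  step_iff.2 ⟨⟨1, one_mem _, by simp⟩, fun b hb => ⟨0, by simpa using hb⟩⟩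

/-- a step from an element of the normalizer -/
theorem step_of_pow {A : Subgroup G} {x : G} (hx : x ∈ normalizer (A : Set G)) {k : ℕ}
    (hk : x ^ p ^ k ∈ A) : Step p A (A ⊔ zpowers x) := by
  obtain ⟨h1, h2, h3⟩ := (H122.step_iff A _).1 ⟨x, hx, rfl⟩
  refine ⟨h1, h2, h3, ?_⟩
  have hxB : x ∈ A ⊔ zpowers x := mem_sup_right (mem_zpowers x)
  set B := A ⊔ zpowers x with hB
  let g : B ⧸ A.subgroupOf B := QuotientGroup.mk' (A.subgroupOf B) ⟨x, hxB⟩
  let S : Subgroup B := (zpowers g).comap (QuotientGroup.mk' (A.subgroupOf B))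
  have hS : B ≤ S.map B.subtype := by
    conv_lhs => rw [hB]
    refine sup_le ?_ ?_
    · intro a ha
      refine ⟨⟨a, h1 ha⟩, ?_, rfl⟩
      change QuotientGroup.mk' (A.subgroupOf B) ⟨a, _⟩ ∈ zpowers g
      have : QuotientGroup.mk' (A.subgroupOf B) ⟨a, h1 ha⟩ = 1 := by
        rw [← MonoidHom.mem_ker, QuotientGroup.ker_mk']
        exact ha
      rw [this]
      exact one_mem _
    · rw [zpowers_le]
      exact ⟨⟨x, hxB⟩, mem_zpowers g, rfl⟩
  have hgk : g ^ p ^ k = 1 := by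
    change (QuotientGroup.mk' (A.subgroupOf B) ⟨x, hxB⟩) ^ p ^ k = 1
    rw [← map_pow, ← MonoidHom.mem_ker, QuotientGroup.ker_mk']
    exact hk
  intro y
  obtain ⟨y, rfl⟩ := QuotientGroup.mk'_surjective _ y
  obtain ⟨z, hz, hz'⟩ := hS y.2
  have hzy : z = y := Subtype.ext hz'
  subst hzy
  obtain ⟨j, hj⟩ := mem_zpowers_iff.1
    (show QuotientGroup.mk' (A.subgroupOf B) z ∈ zpowers g from hz)
  refine ⟨k, ?_⟩
  rw [← hj, ← zpow_natCast, ← zpow_mul, mul_comm, zpow_mul, zpow_natCast, hgk, one_zpow]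

/-- chains as an inductive predicate -/
inductive Ch (p : ℕ) (H : Subgroup G) : Subgroup G → ℕ → Prop
  | refl : Ch p H H 0
  | snoc {A B : Subgroup G} {s : ℕ} : Ch p H A s → Step p A B → Ch p H B (s + 1)

theorem ch_of_fun (c : ℕ → Subgroup G) (s : ℕ) (h : ∀ i < s, Step p (c i) (c (i + 1))) :
    Ch p (c 0) (c s) s := by
  induction s with
  | zero => exact .refl
  | succ s ih => exact .snoc (ih fun i hi => h i (by omega)) (h s (by omega))

theorem pChain_iff {H L : Subgroup G} {s : ℕ} : PChain p H L s ↔ Ch p H L s := by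
  constructor
  · rintro ⟨c, rfl, rfl, h⟩
    exact ch_of_fun c s h
  · intro h
    induction h with
    | refl => exact ⟨fun _ => H, rfl, rfl, fun i hi => absurd hi (Nat.not_lt_zero i)⟩
    | @snoc A B s _ hs ih =>
      obtain ⟨c, h0, h1, h2⟩ := ih
      refine ⟨fun i => if i ≤ s then c i else B, by simpa using h0, by simp, fun i hi => ?_⟩
      change Step p (if i ≤ s then c i else B) (if i + 1 ≤ s then c (i + 1) else B)
      rw [if_pos (by omega)]
      by_cases h3 : i + 1 ≤ s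
      · rw [if_pos h3]
        exact h2 i (by omega)
      · rw [if_neg h3, show i = s by omega, h1]
        exact hs

theorem Ch.le {H L : Subgroup G} {s : ℕ} (h : Ch p H L s) : H ≤ L := by
  induction h with
  | refl => exact le_rfl
  | snoc _ hs ih => exact ih.trans hs.1

theorem Ch.pow {H L : Subgroup G} {s : ℕ} (h : Ch p H L s) :
    ∀ b ∈ L, ∃ k : ℕ, b ^ p ^ k ∈ H := by
  induction h with
  | refl => exact fun b hb => ⟨0, by simpa using hb⟩
  | snoc _ hs ih =>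
    intro b hb
    obtain ⟨k, hk⟩ := (step_iff.1 hs).2 b hb
    obtain ⟨l, hl⟩ := ih _ hk
    exact ⟨k + l, by rwa [pow_add, pow_mul]⟩

theorem Step.map {Q : Type} [Group Q] (φ : G →* Q) {A B : Subgroup G} (h : Step p A B) :
    Step p (A.map φ) (B.map φ) := by
  obtain ⟨⟨x, hx, rfl⟩, h2⟩ := step_iff.1 h
  refine step_iff.2 ⟨⟨φ x, le_normalizer_map φ ⟨x, hx, rfl⟩, ?_⟩, ?_⟩
  · rw [Subgroup.map_sup, MonoidHom.map_zpowers]
  · rintro _ ⟨b, hb, rfl⟩
    obtain ⟨k, hk⟩ := h2 b hb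
    exact ⟨k, _, hk, map_pow φ b _⟩

theorem Ch.map {Q : Type} [Group Q] (φ : G →* Q) {H L : Subgroup G} {s : ℕ} (h : Ch p H L s) :
    Ch p (H.map φ) (L.map φ) s := by
  induction h with
  | refl => exact .refl
  | snoc _ hs ih => exact .snoc ih (hs.map φ)

/-- the preimage of a chain in a quotient which is a `p`-group -/
theorem ch_comap {Q : Type} [Group Q] (hQ : IsPGroup p Q) (φ : G →* Q)
    (hφ : Function.Surjective φ) {A B : Subgroup Q} {s : ℕ} (h : H122.Chain A B s) :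
    Ch p (A.comap φ) (B.comap φ) s := by
  obtain ⟨c, rfl, rfl, h⟩ := h
  refine ch_of_fun (fun i => (c i).comap φ) s fun i hi => ?_
  obtain ⟨x, hx, hc⟩ := h i hi
  obtain ⟨y, rfl⟩ := hφ x
  refine step_iff.2 ⟨⟨y, ?_, ?_⟩, fun b _ => ?_⟩
  · rw [← comap_normalizer_eq_of_surjective _ hφ]
    exact hx
  · rw [hc, ← comap_sup_eq φ _ _ hφ, ← MonoidHom.map_zpowers, comap_map_eq, sup_comm (zpowers y),
      ← sup_assoc, sup_eq_left.2 (ker_le_comap φ _)]
  · obtain ⟨k, hk⟩ := hQ (φ b)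
    refine ⟨k, ?_⟩
    rw [mem_comap, map_pow, hk]
    exact one_mem _

theorem isPGroup_core [Finite G] {H : Subgroup G} (h : ∀ b : G, ∃ k : ℕ, b ^ p ^ k ∈ H) :
    IsPGroup p (G ⧸ H.normalCore) := by
  intro y
  obtain ⟨x, rfl⟩ := QuotientGroup.mk_surjective y
  choose k hk using fun g : G => h (g * x * g⁻¹)
  obtain ⟨M, hM⟩ := (Set.finite_range k).bddAbove
  refine ⟨M, ?_⟩
  rw [← QuotientGroup.mk_pow, QuotientGroup.eq_one_iff]
  intro g
  obtain ⟨l, hl⟩ := Nat.exists_eq_add_of_le (hM ⟨g, rfl⟩)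
  rw [← conj_pow, hl, pow_add, pow_mul]
  exact pow_mem (hk g) _

/-! ### Counting fixed points -/

theorem Step.card_fix [Fact p.Prime] {A B : Subgroup G} (h : Step p A B) (T : Type)
    [MulAction G T] [Finite T] :
    Nat.card (fixedPoints A T) ≡ Nat.card (fixedPoints B T) [MOD p] := by
  obtain ⟨h1, h2, -, h4⟩ := h
  have hle : B ≤ normalizer (A : Set G) := (normal_subgroupOf_iff_le_normalizer h1).1 h2
  let _ : MulAction B (fixedPoints A T) :=
    { smul := fun b x => ⟨(b : G) • x.1, fun a => by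
        have h5 : (b : G)⁻¹ * a * (b : G)⁻¹⁻¹ ∈ A :=
          (mem_normalizer_iff.1 (hle (B.inv_mem b.2)) a).1 a.2
        have h6 : ((b : G)⁻¹ * a * (b : G)⁻¹⁻¹) • x.1 = x.1 := x.2 ⟨_, h5⟩
        rw [inv_inv, mul_smul, mul_smul, inv_smul_eq_iff] at h6
        exact h6⟩
      one_smul := fun x => Subtype.ext (one_smul G x.1)
      mul_smul := fun b c x => Subtype.ext (mul_smul (b : G) c x.1) }
  have hR : IsPGroup p (toPermHom B (fixedPoints A T)).range := by
    rintro ⟨_, b, rfl⟩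
    obtain ⟨k, hk⟩ := isPGroup_iff.1 h4 b.1 b.2
    refine ⟨k, Subtype.ext ?_⟩
    change toPermHom B (fixedPoints A T) b ^ p ^ k = 1
    rw [← map_pow]
    ext x
    exact x.2 ⟨_, hk⟩
  refine (hR.card_modEq_card_fixedPoints (fixedPoints A T)).trans (Nat.ModEq.refl _ |>.trans ?_)
  rw [Nat.card_congr (show fixedPoints (toPermHom B (fixedPoints A T)).range (fixedPoints A T) ≃
      fixedPoints B T from
    { toFun := fun x => ⟨x.1.1, fun b => congrArg Subtype.val (x.2 ⟨_, b, rfl⟩)⟩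
      invFun := fun x => ⟨⟨x.1, fun a => x.2 ⟨a.1, h1 a.2⟩⟩, by
        rintro ⟨_, b, rfl⟩
        exact Subtype.ext (x.2 b)⟩
      left_inv := fun _ => rfl
      right_inv := fun _ => rfl })]

theorem Ch.card_fix [Fact p.Prime] {H L : Subgroup G} {s : ℕ} (h : Ch p H L s) (T : Type)
    [MulAction G T] [Finite T] :
    Nat.card (fixedPoints H T) ≡ Nat.card (fixedPoints L T) [MOD p] := by
  induction h with
  | refl => rfl
  | snoc _ hs ih => exact ih.trans (hs.card_fix T)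

theorem exists_coprime [hp : Fact p.Prime] [Finite G] {H : Subgroup G} (h : ∀ s, ¬ Ch p H ⊤ s) :
    ∃ K : Subgroup G, K ≠ ⊤ ∧ (Nat.card (fixedPoints H (G ⧸ K))).Coprime p := by
  have : Finite (Subgroup G) :=
    Finite.of_injective (fun H : Subgroup G => (H : Set G)) SetLike.coe_injective
  obtain ⟨K, ⟨s, hs⟩, hK⟩ := Set.Finite.exists_maximal
    (Set.toFinite {K : Subgroup G | ∃ s, Ch p H K s}) ⟨H, 0, .refl⟩
  refine ⟨K, fun h1 => h s (h1 ▸ hs), ?_⟩
  rw [Nat.coprime_comm, hp.1.coprime_iff_not_dvd]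
  intro h2
  have h3 : p ∣ Nat.card (fixedPoints K (G ⧸ K)) :=
    ((hs.card_fix (G ⧸ K)).dvd_iff dvd_rfl).1 h2
  rw [Nat.card_congr (Sylow.fixedPointsMulLeftCosetsEquivQuotient K)] at h3
  have h4 : p ∣ Nat.card (normalizer (K : Set G) ⧸ K.subgroupOf (normalizer (K : Set G))) := h3
  obtain ⟨w, hw⟩ := exists_prime_orderOf_dvd_card' p h4
  obtain ⟨y, rfl⟩ := QuotientGroup.mk_surjective w
  have h5 : (y : G) ^ p ^ 1 ∈ K := by
    have h6 := pow_orderOf_eq_one (QuotientGroup.mk y :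
      normalizer (K : Set G) ⧸ K.subgroupOf (normalizer (K : Set G)))
    rw [hw, ← QuotientGroup.mk_pow, QuotientGroup.eq_one_iff] at h6
    rw [pow_one]
    exact h6
  have h7 : K ⊔ zpowers (y : G) ≤ K := hK ⟨_, hs.snoc (step_of_pow y.2 h5)⟩ le_sup_left
  have h8 : (QuotientGroup.mk y :
      normalizer (K : Set G) ⧸ K.subgroupOf (normalizer (K : Set G))) = 1 :=
    (QuotientGroup.eq_one_iff y).2 (h7 (mem_sup_right (mem_zpowers _)))
  rw [h8, orderOf_one] at hw
  exact hp.1.one_lt.ne hw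

theorem isEmpty_fix {K : Subgroup G} (hK : K ≠ ⊤) :
    IsEmpty (fixedPoints (⊤ : Subgroup G) (G ⧸ K)) := by
  refine ⟨fun x => hK (eq_top_iff.2 fun g _ => ?_)⟩
  obtain ⟨c, hc⟩ := x
  obtain ⟨a, rfl⟩ := QuotientGroup.mk_surjective c
  have h1 : (QuotientGroup.mk (a * g⁻¹ * a⁻¹ * a) : G ⧸ K) = QuotientGroup.mk a :=
    hc ⟨a * g⁻¹ * a⁻¹, trivial⟩
  have h2 := QuotientGroup.eq.1 h1
  simpa [mul_assoc] using h2

end Vale.Agent.N241
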