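import Vale.Agent.N241.Tr
import Vale.Agent.N241.Grp
import Vale.Agent.P241GZ.Top

/-!
# Chromatic fixed point theory for all finite groups

* `Van.ch` : the upper bound along a chain; `exists_test` : the test complexes;
* `pair_iff`, `exists_type`, `type_iff` : the implications between acyclicity of fixed points and
  the possible type functions of finite `G`-cell spaces.
-/

open CategoryTheory MonoidalCategory Limits Pretriangulated

noncomputable section

namespace Vale.Agent.N241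

open Vale.Agent.P251 Vale.Agent.P251.St Vale.Agent.P241 Vale.Agent.P241.St
open Vale.Agent.P241.H486 Vale.Agent.P241.H32 Vale.Agent.P241.H435 Geo
open P241Z (Fn perm gfc_perm pLocal_moravaK)

variable {T : SHCat} (S : Susp T) {p : ℕ} [hp : Fact p.Prime] (K : ℕ → RingA T)
  {G : Type} [Group G] [Finite G]

/-- `K(j)_* (X^B) = 0` -/
abbrev Van (j : ℕ) (X : GSpace G) (B : Subgroup G) : Prop :=
  St.Acyclic (K j).obj (S.obj (X.fix B))

variable {S K} {X Y : GSpace G}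

/-- `X^B ≅ X^{g B g⁻¹}` -/
def fixCj (X : GSpace G) (B : Subgroup G) (g : G) :
    (X.fix B).carrier ≃ₜ (X.fix (cj g B)).carrier := Final.fixConj X B g

theorem van_cj (hX : GFC G X) {j : ℕ} {B : Subgroup G} (g : G) :
    Van S K j X (cj g B) ↔ Van S K j X B :=
  acyclic_homeo S (fc_fix hX _) (fc_fix hX _) (fixCj X B g)

theorem van_prod (hX : GFC G X) (hY : GFC G Y) {j : ℕ} {B : Subgroup G} :
    Van S K j (X.prod Y) B ↔ St.Acyclic (K j).obj (S.obj (X.fix B) ⊗ S.obj (Y.fix B)) :=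
  (acyclic_homeo S (fc_fix (gfc_prod hX hY) B) (fc_prod (fc_fix hX B) (fc_fix hY B))
    (fixProdHomeo X Y B)).trans (acyclic_congr (H399.mulI S (fc_fix hX B) (fc_fix hY B))).symm

theorem van_triv {Z : Space} (hZ : St.FC Z) {j : ℕ} (B : Subgroup G) :
    Van S K j (GSpace.triv G Z) B ↔ St.Acyclic (K j).obj (S.obj Z) :=
  (acyclic_homeo S hZ (fc_fix (gfc_triv hZ) B) (fixTrivHomeo Z B)).symm

theorem van_res {Q : Type} [Group Q] [Finite Q] (φ : G →* Q) {Y : GSpace Q} (hY : GFC Q Y)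
    {j : ℕ} (B : Subgroup G) : Van S K j (Y.res φ) B ↔ Van S K j Y (B.map φ) :=
  (acyclic_homeo S (fc_fix hY _) (fc_fix (gfc_res φ hY) B) (resFixHomeo φ Y B)).symm

theorem acyclic_iff_of_cone {E A B C : T.C} {f : A ⟶ B} (h : H399.IsConeOf f C) :
    St.Acyclic E C ↔ IsIso (E ◁ f) := by
  obtain ⟨g, d, h1⟩ := h.whiskerLeft E
  exact acyclic_iff_isZero.trans (Triangle.isZero₃_iff_isIso₁ _ h1)

variable (hK : ∀ i, IsMoravaK S p i (K i))
include hK

omit hp in
theorem unit_ne (j : ℕ) : (K j).unit ≠ 0 := by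
  have h := hK j
  unfold IsMoravaK at h
  split_ifs at h
  exacts [h.ne, h.1.ne]

theorem Van.step (hX : GFC G X) {A B : Subgroup G} (h : Step p A B) {j : ℕ}
    (h1 : Van S K (j + 1) X A) : Van S K j X B := by
  obtain ⟨h2, h3, h4, h5⟩ := h
  obtain ⟨Y, hY, ⟨e1⟩, ⟨e2⟩⟩ := H14.subQuot G X hX A B h2
  exact (acyclic_homeo S (fc_fix hX _) (fc_fix hY _) e2).2 (H891.cyclic S p K hK _ h5 j Y hY
    ((acyclic_homeo S (fc_fix hY _) (fc_fix hX _) e1).2 h1))

theorem Van.mono (hX : GFC G X) {A : Subgroup G} {i j : ℕ} (h : i ≤ j) (h1 : Van S K j X A) :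
    Van S K i X A := by
  induction j, h using Nat.le_induction with
  | base => exact h1
  | succ j _ ih => exact ih (Van.step hK hX (Step.refl A) h1)

theorem Van.ch (hX : GFC G X) {H L : Subgroup G} {s : ℕ} (h : Ch p H L s) :
    ∀ n, Van S K (n + s) X H → Van S K n X L := by
  induction h with
  | refl => exact fun _ h => h
  | @snoc A B s _ hs ih =>
    exact fun n h => Van.step hK hX hs (ih (n + 1) (by rwa [add_right_comm]))

theorem not_van_prod (hX : GFC G X) (hY : GFC G Y) {j : ℕ} {B : Subgroup G}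
    (h1 : ¬ Van S K j X B) (h2 : ¬ Van S K j Y B) : ¬ Van S K j (X.prod Y) B := by
  obtain ⟨q, hq⟩ := H399.gfAll S p j (K j) (hK j)
  obtain ⟨I, _, _, ⟨b⟩⟩ := nz_of_not_acyclic (hasBas_obj hq (fc_fix hX B)) h1
  obtain ⟨J, _, _, ⟨b'⟩⟩ := nz_of_not_acyclic (hasBas_obj hq (fc_fix hY B)) h2
  rw [van_prod hX hY, acyclic_iff_isZero]
  exact NZ.not_isZero (unit_ne hK j) ⟨I × J, inferInstance, inferInstance, ⟨b.tensor b'⟩⟩

omit hK in
theorem lower (S : Susp T) (p : ℕ) [Fact p.Prime] : LowerBound S p :=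
  Final.lowerBound_of_cone S p (H399.coneG_of_gfc S p (fun _ _ _ _ _ hX hS => gfc_xt hX hS)
    H132.xaGFC)

/-- finite complexes of type `n` -/
theorem exists_typeN (n : ℕ) : ∃ Z : Space, St.FC Z ∧ ¬ St.Acyclic (K n).obj (S.obj Z) ∧
    ∀ m < n, St.Acyclic (K m).obj (S.obj Z) := by
  have hC : IsPGroup p (Multiplicative (ZMod p)) := IsPGroup.of_card (n := 1) (by simp)
  obtain ⟨X, hX, h1, h2⟩ := lower S p K hK _ hC ⊥ n 0 (by
    rw [Final.ell_eq]
    exact H122.one_le_ell hC bot_ne_top)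
  exact ⟨_, fc_fix hX ⊤, h2, fun m hm =>
    H891.cyclic S p K hK _ hC m X hX (Van.mono hK hX (j := n) hm h1)⟩

theorem wit_p (hG : IsPGroup p G) (H : Subgroup G) (n : ℕ) : ∃ Y, GFC G Y ∧ ¬ Van S K n Y ⊤ ∧
    ∀ m < n + St.ell H, Van S K m Y H := by
  rcases h : St.ell H with _ | r
  · obtain ⟨Z, h1, h2, h3⟩ := exists_typeN hK n
    exact ⟨_, gfc_triv h1, mt (van_triv h1 ⊤).1 h2, fun m hm => (van_triv h1 H).2 (h3 m hm)⟩
  · obtain ⟨Y, h1, h2, h3⟩ := lower S p K hK G hG H n r (by omega)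
    exact ⟨Y, h1, h3, fun m hm => Van.mono hK h1 (j := n + r) (by omega) h2⟩

/-- the fixed points of a transitive permutation representation -/
def fixPerm (M : Subgroup G) [Fintype (G ⧸ M)] :
    Rr.carrier ≃ₜ ((perm G (G ⧸ M)).fix ⊤).carrier where
  toFun c := ⟨Fn.mk fun _ => c, fun _ => rfl⟩
  invFun x := Fn.ev x.1 ((1 : G) : G ⧸ M)
  left_inv _ := rfl
  right_inv x := Subtype.ext (Fn.ext fun i => by
    obtain ⟨g, rfl⟩ := QuotientGroup.mk_surjective i
    have h := congrArg (fun y => Fn.ev y ((g : G) : G ⧸ M)) (x.2 ⟨g, trivial⟩)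
    refine Eq.trans ?_ h
    change Fn.ev x.1 ((1 : G) : G ⧸ M) = Fn.ev x.1 ((g⁻¹ * g : G) : G ⧸ M)
    rw [inv_mul_cancel])
  continuous_toFun := (Fn.continuous_mk fun _ => continuous_id).subtype_mk _
  continuous_invFun :=
    (Fn.continuous_ev _).comp (isClosedEmbedding_fix (perm G (G ⧸ M)) ⊤).continuous

theorem wit_q {H : Subgroup G} (h : ∀ s, ¬ Ch p H ⊤ s) : ∃ Y, GFC G Y ∧
    ∀ m, ¬ Van S K m Y ⊤ ∧ Van S K m Y H := by
  classical
  obtain ⟨M, h1, h2⟩ := exists_coprime h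
  have := Fintype.ofFinite (G ⧸ M)
  obtain ⟨Y, hY, h3⟩ := exists_cone (G := G) (I := G ⧸ M)
  refine ⟨Y, hY, fun m => ⟨fun h4 => ?_, (acyclic_iff_of_cone (h3 H T S)).2 ?_⟩⟩
  · have h5 := (acyclic_iff_of_cone (h3 ⊤ T S)).1 h4
    erw [@Nat.card_of_isEmpty _ (isEmpty_fix h1)] at h5
    rw [zero_smul, MonoidalPreadditive.whiskerLeft_zero] at h5
    have h6 := (acyclic_homeo S (fc_fix gfc_perm ⊤) H399.fc_Rr (fixPerm M)).1
      (acyclic_iff_isZero.2 (isIsoZero_iff_source_target_isZero _ _ |>.1 h5).1)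
    rw [acyclic_congr (H399.lineI S), acyclic_shift, acyclic_iff_isZero] at h6
    exact unit_ne hK m ((h6.of_iso (ρ_ _).symm).eq_of_tgt _ _)
  · have h5 := pLocal_moravaK hp.1 (hK m) _ h2
    have h6 : ∀ (A : T.C) (d : ℕ), (K m).obj ◁ (d • 𝟙 A) = ((d : ℤ) • 𝟙 (K m).obj) ▷ A := by
      intro A d
      have e1 := (tensorLeft (K m).obj).map_nsmul (f := 𝟙 A) (n := d)
      have e2 := (tensorRight A).map_zsmul (f := 𝟙 (K m).obj) (r := (d : ℤ))
      rw [CategoryTheory.Functor.map_id] at e1 e2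
      exact e1.trans ((natCast_zsmul _ d).symm.trans e2.symm)
    rw [h6]
    exact @Functor.map_isIso _ _ _ _ _ _ (tensorRight _) _ h5

theorem wit (H : Subgroup G) (n : ℕ) : ∃ Y, GFC G Y ∧ ¬ Van S K n Y ⊤ ∧
    ∀ m, (∀ s, Ch p H ⊤ s → m < n + s) → Van S K m Y H := by
  by_cases h : ∃ s, Ch p H ⊤ s
  · obtain ⟨s, hs⟩ := h
    have hQ := isPGroup_core fun b => hs.pow b trivial
    have hπ := QuotientGroup.mk'_surjective H.normalCore
    obtain ⟨Y, h1, h2, h3⟩ := wit_p hK hQ (H.map (QuotientGroup.mk' H.normalCore)) n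
    have h4 := ch_comap hQ _ hπ (H122.chain_ell hQ (H.map (QuotientGroup.mk' H.normalCore)))
    rw [Subgroup.comap_top, Subgroup.comap_map_eq, QuotientGroup.ker_mk',
      sup_eq_left.2 H.normalCore_le, ← Final.ell_eq] at h4
    refine ⟨_, gfc_res _ h1, ?_, fun m hm => (van_res _ h1 H).2 (h3 m (hm _ h4))⟩
    rwa [van_res _ h1, Subgroup.map_top_of_surjective _ hπ]
  · obtain ⟨Y, h1, h2⟩ := wit_q hK fun s hs => h ⟨s, hs⟩
    exact ⟨Y, h1, (h2 n).1, fun m _ => (h2 m).2⟩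

variable (G) in
theorem wit_all (n : ℕ) : ∃ Y, GFC G Y ∧ ¬ Van S K n Y ⊤ ∧
    ∀ H m, (∀ s, Ch p H ⊤ s → m < n + s) → Van S K m Y H := by
  classical
  have : Finite (Subgroup G) :=
    Finite.of_injective (fun H : Subgroup G => (H : Set G)) SetLike.coe_injective
  have := Fintype.ofFinite (Subgroup G)
  suffices h : ∀ F : Finset (Subgroup G), ∃ Y, GFC G Y ∧ ¬ Van S K n Y ⊤ ∧
      ∀ H ∈ F, ∀ m, (∀ s, Ch p H ⊤ s → m < n + s) → Van S K m Y H by
    obtain ⟨Y, h1, h2, h3⟩ := h Finset.univ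
    exact ⟨Y, h1, h2, fun H => h3 H (Finset.mem_univ H)⟩
  intro F
  induction F using Finset.induction_on with
  | empty =>
    obtain ⟨Y, h1, h2, -⟩ := wit hK (⊤ : Subgroup G) n
    exact ⟨Y, h1, h2, fun H hH => absurd hH (Finset.notMem_empty H)⟩
  | insert A F _ ih =>
    obtain ⟨X, h1, h2, h3⟩ := ih
    obtain ⟨Y, h4, h5, h6⟩ := wit hK A n
    refine ⟨_, gfc_prod h1 h4, not_van_prod hK h1 h4 h2 h5, fun H hH m hm => ?_⟩
    rw [van_prod h1 h4]
    rcases Finset.mem_insert.1 hH with rfl | hH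
    · exact (acyclic_congr (β_ _ _)).1 (acyclic_tensor (h6 m hm))
    · exact acyclic_tensor (h3 H hH m hm)

/-- **The test complexes.** -/
theorem exists_test (L : Subgroup G) (n : ℕ) : ∃ X, GFC G X ∧ ¬ Van S K n X L ∧
    ∀ H m, (∀ g s, Ch p (cj g H) L s → m < n + s) → Van S K m X H := by
  obtain ⟨Y, h1, h2, h3⟩ := wit_all L hK n
  refine ⟨_, gfc_ind h1, mt (acyclic_of_ind S h1) h2, fun H m hm =>
    acyclic_ind S h1 fun g hg => h3 _ m fun s hs => hm g s ?_⟩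
  have h4 := hs.map L.subtype
  rwa [Subgroup.map_subgroupOf_eq_of_le hg, ← MonoidHom.range_eq_map, L.range_subtype] at h4

theorem pair_iff (H L : Subgroup G) (m n : ℕ) :
    (∀ X, GFC G X → Van S K m X H → Van S K n X L) ↔
      ∃ g s, PChain p (cj g H) L s ∧ n + s ≤ m := by
  constructor
  · intro h
    by_contra h1
    obtain ⟨X, h2, h3, h4⟩ := exists_test hK L n
    exact h3 (h X h2 (h4 H m fun g s hs => not_le.1 fun h5 => h1 ⟨g, s, pChain_iff.2 hs, h5⟩))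
  · rintro ⟨g, s, h1, h2⟩ X hX h3
    exact Van.ch hK hX (pChain_iff.1 h1) n (Van.mono hK hX h2 ((van_cj hX g).2 h3))

theorem exists_type (hX : GFC G X) :
    ∃ τ : Subgroup G → ℕ∞, ∀ H (m : ℕ), Van S K m X H ↔ m < τ H := by
  classical
  refine ⟨fun H => if h : ∃ m, ¬ Van S K m X H then ((Nat.find h : ℕ) : ℕ∞) else ⊤,
    fun H m => ?_⟩
  beta_reduce
  split_ifs with h
  · rw [Nat.cast_lt, Nat.lt_find_iff]
    exact ⟨fun h1 i hi => not_not.2 (Van.mono hK hX hi h1), fun h1 => not_not.1 (h1 m le_rfl)⟩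
  · exact ⟨fun _ => ENat.natCast_lt_top m, fun _ => not_not.1 fun h1 => h ⟨m, h1⟩⟩

theorem type_iff (τ : Subgroup G → ℕ∞) :
    (∃ X, GFC G X ∧ ∀ H (m : ℕ), Van S K m X H ↔ m < τ H) ↔
      ∀ g H L s, PChain p (cj g H) L s → τ H ≤ τ L + s := by
  classical
  constructor
  · rintro ⟨X, hX, h⟩ g H L s hs
    induction h1 : τ L with
    | top => exact le_top
    | coe n =>
      by_contra h2
      have h3 := (pair_iff hK H L (n + s) n).2 ⟨g, s, hs, le_rfl⟩ X hX
        ((h H _).2 (by rw [Nat.cast_add]; exact not_le.1 h2))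
      rw [h, h1] at h3
      exact lt_irrefl _ h3
  · intro h
    have : Finite (Subgroup G) :=
      Finite.of_injective (fun H : Subgroup G => (H : Set G)) SetLike.coe_injective
    have := Fintype.ofFinite (Subgroup G)
    suffices h1 : ∀ F : Finset (Subgroup G), ∃ X, GFC G X ∧
        (∀ H (m : ℕ), m < τ H → Van S K m X H) ∧
        ∀ H ∈ F, ∀ m : ℕ, Van S K m X H → m < τ H by
      obtain ⟨X, h2, h3, h4⟩ := h1 Finset.univ
      exact ⟨X, h2, fun H m => ⟨h4 H (Finset.mem_univ H) m, h3 H m⟩⟩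
    intro F
    induction F using Finset.induction_on with
    | empty =>
      refine ⟨_, GFC.empty, fun H m _ => (van_triv FC.empty H).2 ?_,
        fun H hH => absurd hH (Finset.notMem_empty H)⟩
      change 𝟙 ((K m).obj ⊗ S.obj Em) = 0
      rw [← MonoidalCategory.whiskerLeft_id]
      exact (congrArg _ (S.isZero FC.empty (inferInstanceAs (IsEmpty Empty)))).trans
        MonoidalPreadditive.whiskerLeft_zero
    | insert L F _ ih =>
      obtain ⟨X, h2, h3, h4⟩ := ih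
      induction h5 : τ L with
      | top =>
        refine ⟨X, h2, h3, fun H hH m hm => ?_⟩
        rcases Finset.mem_insert.1 hH with rfl | hH
        · rw [h5]
          exact ENat.natCast_lt_top m
        · exact h4 H hH m hm
      | coe n =>
        obtain ⟨Y, h6, h7, h8⟩ := exists_test hK L n
        refine ⟨_, gfc_gsum h2 h6, fun H m hm => (acyclic_gsum S h2 h6 H).2
          ⟨h3 H m hm, h8 H m fun g s hs => ?_⟩, fun H hH m hm => ?_⟩
        · have h9 := hm.trans_le (h g H L s (pChain_iff.2 hs))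
          rwa [h5, ← Nat.cast_add, Nat.cast_lt] at h9
        · obtain ⟨h9, h10⟩ := (acyclic_gsum S h2 h6 H).1 hm
          rcases Finset.mem_insert.1 hH with rfl | hH
          · rw [h5, Nat.cast_lt]
            exact not_le.1 fun h11 => h7 (Van.mono hK h6 h11 h10)
          · exact h4 H hH m h9

omit hK hp in
/-- **The theorem for genuine `G`-spectra.** -/
theorem genuine (T : P241L.SM) (I : P241L.IsSH T) (p : ℕ) (hp : p.Prime) (K : ℕ → P241L.Rg T)
    (hK : ∀ i, P241L.Morava p i (K i)) (G : Type) [Group G] [Finite G]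
    [Preadditive (P241GX.Ho G)] :
    (∀ (H L : Subgroup G) (m n : ℕ), (∀ A : P241GX.Pl G p, P241GX.Cpt A →
      P241GX.Acy H p I K A m → P241GX.Acy L p I K A n) ↔
        ∃ s, Joins p H L s ∧ n + s ≤ m) ∧
    (∀ A : P241GX.Pl G p, P241GX.Cpt A →
      ∃ τ : Subgroup G → ℕ∞, ∀ H (m : ℕ), P241GX.Acy H p I K A m ↔ m < τ H) ∧
    ∀ τ : Subgroup G → ℕ∞, (∃ A : P241GX.Pl G p, P241GX.Cpt A ∧
      ∀ H (m : ℕ), P241GX.Acy H p I K A m ↔ m < τ H) ↔
        ∀ H L s, Joins p H L s → τ H ≤ τ L + s := by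
  obtain ⟨T, S, rfl⟩ := P241CT.exists_heavy I
  have := Fact.mk hp
  have hK' : ∀ i, IsMoravaK S p i (P241Z.toSt (P241L.rA (K i))) := fun i =>
    P241Z.isMoravaK_iff.mp ((P241L.morava_iff p i _).mp (hK i))
  obtain ⟨h1, h2⟩ := P241GZ.cmp (G := G) I K hp fun i => pLocal_moravaK hp (hK' i)
  refine ⟨fun H L m n => Iff.trans ⟨fun h Z hZ a => ?_, fun h A hA a => ?_⟩
    ((pair_iff hK' H L m n).trans ⟨fun ⟨g, s, a, b⟩ => ⟨s, joins_iff.2 ⟨g, a⟩, b⟩,
      fun ⟨s, a, b⟩ => (joins_iff.1 a).imp fun _ c => ⟨s, c, b⟩⟩),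
    fun A hA => ?_, fun τ => Iff.trans ⟨?_, ?_⟩ ((type_iff hK' τ).trans
      ⟨fun h H L s a => (joins_iff.1 a).elim fun g c => h g H L s c,
        fun h g H L s c => h H L s (joins_iff.2 ⟨g, c⟩)⟩)⟩
  · obtain ⟨A, hA, b⟩ := h2 Z hZ
    exact (b L n).1 (h A hA ((b H m).2 a))
  · obtain ⟨Z, hZ, b⟩ := h1 A hA
    exact (b L n).2 (h Z hZ ((b H m).1 a))
  · obtain ⟨Z, hZ, b⟩ := h1 A hA
    obtain ⟨τ, h⟩ := exists_type hK' hZ
    exact ⟨τ, fun H m => (b H m).trans (h H m)⟩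
  · rintro ⟨A, hA, h⟩
    obtain ⟨Z, hZ, b⟩ := h1 A hA
    exact ⟨Z, hZ, fun H m => (b H m).symm.trans (h H m)⟩
  · rintro ⟨Z, hZ, h⟩
    obtain ⟨A, hA, b⟩ := h2 Z hZ
    exact ⟨A, hA, fun H m => (b H m).trans (h H m)⟩

end Vale.Agent.N241
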