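import Vale.Agent.N241.St
import Vale.Agent.N241.Main

/-!
# Comparison of the definitions of `N241/St.lean` with the ones used in the proofs
-/

open CategoryTheory Limits

noncomputable section

namespace Vale.Agent.N241

open P241GX (Ho Pl IsPhi)

/-- the same data in the older structure -/
abbrev SM.old (T : SM) : P241L.SM := ⟨T.Sp, T.ssp, T.sm, T.sx, T.su⟩

/-- the same data in the newer structure -/
abbrev SM.new (T : P241L.SM) : SM := ⟨T.Sp, T.sus, T.sm, T.sx, T.su⟩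

variable {T : SM}

/-- the same data in the older structure -/
def IsSH.old (I : IsSH T) : P241L.IsSH T.old :=
  ⟨I.Lo, I.lo, I.lo_id, I.lo_comp, I.loc, I.lx, I.io, I.flat, I.lx_iso, I.lx_nat, I.lx_assoc,
    I.lx_comm, I.lx_unit, I.io_iso, I.io_nat, I.io_mul⟩

/-- the same data in the newer structure -/
def IsSH.new {T : P241L.SM} (I : P241L.IsSH T) : IsSH (SM.new T) :=
  ⟨I.L, I.l, I.l_id, I.l_comp, I.loc, I.mu, I.io, I.flat, I.mu_iso, I.mu_nat, I.mu_assoc,
    I.mu_comm, I.mu_unit, I.io_iso, I.io_nat, I.io_mul⟩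

/-- the same data in the older structure -/
abbrev Rg.old (K : Rg T) : P241L.Rg T.old := @P241L.Rg.mk T.old K.ob K.mo

/-- the same data in the newer structure -/
abbrev Rg.new (K : P241L.Rg T.old) : Rg T := @Rg.mk T K.ob K.mo

/-- the same data in the older structure -/
def Orient.old {R : Rg T} (o : Orient R) : P241L.Orient R.old :=
  ⟨o.th, o.isom, o.sum, o.fibre⟩

/-- the same data in the newer structure -/
def Orient.new {R : P241L.Rg T.old} (o : P241L.Orient R) : Orient (Rg.new R) :=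
  ⟨o.th, o.isom, o.sum, o.fibre⟩

theorem morava_old {p n : ℕ} {K : Rg T} : Morava p n K ↔ P241L.Morava p n K.old := by
  unfold Morava P241L.Morava
  split_ifs
  · exact ⟨fun h => ⟨h.1, h.2, h.3, h.4⟩, fun h => ⟨h.1, h.2, h.3, h.4⟩⟩
  · exact and_congr ⟨fun h => ⟨h.1, h.2, h.3, h.4⟩, fun h => ⟨h.1, h.2, h.3, h.4⟩⟩
      ⟨fun ⟨R, u, o, h⟩ => ⟨R.old, u, o.old, h⟩, fun ⟨R, u, o, h⟩ => ⟨Rg.new R, u, .new o, h⟩⟩

theorem exists_sh : ∃ T : SM, Nonempty (IsSH T) :=
  let ⟨T, ⟨I⟩⟩ := P241GZ.target.2.1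
  ⟨SM.new T, ⟨.new I⟩⟩

variable (I : IsSH T) {p : ℕ} (hp : p.Prime)
include I hp

theorem exists_morava : ∃ K : ℕ → Rg T, ∀ i, Morava p i (K i) :=
  let ⟨K, h⟩ := (P241GZ.target.2.2 T.old I.old p hp).1
  ⟨fun i => Rg.new (K i), fun i => morava_old.2 (h i)⟩

variable (K : ℕ → Rg T) (hK : ∀ i, Morava p i (K i)) (G : Type) [Group G] [Finite G]
  [Preadditive (Ho G)]
include hK

theorem smith (hG : IsPGroup p G) (H : Subgroup G) (n : ℕ) :
    rLoss H I K p n = ell H ∧ ∀ r, Implies H I K p n r ↔ ell H ≤ r :=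
  (P241GZ.target.2.2 T.old I.old p hp).2 (fun i => (K i).old) (fun i => morava_old.1 (hK i))
    G hG H n

theorem all_groups :
    (∀ (H J : Subgroup G) (m n : ℕ), (∀ A : Pl G p, FinSp A →
      Vanish H I K A m → Vanish J I K A n) ↔ ∃ s, Joins p H J s ∧ n + s ≤ m) ∧
    (∀ A : Pl G p, FinSp A →
      ∃ τ : Subgroup G → ℕ∞, ∀ H (m : ℕ), Vanish H I K A m ↔ m < τ H) ∧
    ∀ τ : Subgroup G → ℕ∞, (∃ A : Pl G p, FinSp A ∧
      ∀ H (m : ℕ), Vanish H I K A m ↔ m < τ H) ↔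
        ∀ H J s, Joins p H J s → τ H ≤ τ J + s :=
  genuine T.old I.old p hp (fun i => (K i).old) (fun i => morava_old.1 (hK i)) G

end Vale.Agent.N241
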