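import Mathlib.GroupTheory.PGroup
import Mathlib.GroupTheory.SpecificGroups.Cyclic

/-! Chains of subgroups whose quotients are cyclic `p`-groups. -/

namespace Vale.Agent.N241

/-- There is a chain `g H g⁻¹ = c 0 ⊴ c 1 ⊴ ⋯ ⊴ c s = L` starting at a conjugate of `H`, each group
normal in the next, whose quotients are cyclic `p`-groups. -/
def Joins (p : ℕ) {G : Type} [Group G] (H L : Subgroup G) (s : ℕ) : Prop :=
  ∃ (g : G) (c : ℕ → Subgroup G), (∀ x, x ∈ c 0 ↔ g⁻¹ * x * g ∈ H) ∧ c s = L ∧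
    ∀ i < s, c i ≤ c (i + 1) ∧ ∃ _ : ((c i).subgroupOf (c (i + 1))).Normal,
      IsCyclic (c (i + 1) ⧸ (c i).subgroupOf (c (i + 1))) ∧
        IsPGroup p (c (i + 1) ⧸ (c i).subgroupOf (c (i + 1)))

end Vale.Agent.N241
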