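import Vale.Agent.P241.H32.Triv
import Vale.Agent.P241.H399.Block
import Mathlib.Algebra.Group.Action.Sum

/-!
# Sums of pointed maps, disjoint unions, induced spaces

* `IsSum s f F` : `F` is the sum of the maps `f t` with disjoint supports; `IsSum.map`;
* `acyclic_cover`, `acyclic_piece` : acyclicity of finite disjoint unions;
* `gsum` : the disjoint union of two `G`-spaces;
* `ind L X` : the induced space `G ×_L X`; `gfc_ind`, `acyclic_ind`, `acyclic_of_ind`.
-/

open CategoryTheory MonoidalCategory Limits OnePoint Topology Filter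

noncomputable section

namespace Vale.Agent.N241

open Vale.Agent.P251 Vale.Agent.P251.St Vale.Agent.P251.G Vale.Agent.P251.G.LC Vale.Agent.P251.I
open Vale.Agent.P241 Vale.Agent.P241.St Vale.Agent.P241.H486 Vale.Agent.P241.H32

section sum

variable {X Y : LC} {D : Type}

/-- `F` is the sum of the maps `f t`, `t ∈ s`. -/
def IsSum (s : Finset D) (f : D → (X ⟶ Y)) (F : X ⟶ Y) : Prop :=
  ∀ x, (∀ t ∈ s, app (f t) x ≠ ∞ → app F x = app (f t) x) ∧
    ((∀ t ∈ s, app (f t) x = ∞) → app F x = ∞)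

theorem IsSum.unique {s : Finset D} {f : D → (X ⟶ Y)} {F F' : X ⟶ Y} (h : IsSum s f F)
    (h' : IsSum s f F') : F = F' := by
  apply app_ext
  intro x
  by_cases h1 : ∀ t ∈ s, app (f t) x = ∞
  · rw [(h x).2 h1, (h' x).2 h1]
  · push Not at h1
    obtain ⟨t, ht, h2⟩ := h1
    rw [(h x).1 t ht h2, (h' x).1 t ht h2]

theorem exists_isSum (f : D → (X ⟶ Y))
    (hf : ∀ x t t', app (f t) x ≠ ∞ → app (f t') x ≠ ∞ → t = t') (s : Finset D) :
    ∃ F, IsSum s f F ∧ ∀ (T : SHCat) (S : Susp T), St.FC (ofLC X) → St.FC (ofLC Y) →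
      S.mapL F = ∑ t ∈ s, S.mapL (f t) := by
  classical
  induction s using Finset.induction_on with
  | empty =>
    refine ⟨0, fun x => ⟨fun t ht => absurd ht (Finset.notMem_empty t), fun _ => rfl⟩,
      fun T S hX hY => ?_⟩
    rw [Finset.sum_empty]
    exact S.toSpaceFunctor.map_zero (X := ⟨X, fc_toLC hX⟩) (Y := ⟨Y, fc_toLC hY⟩) (FCat.hom 0) rfl
  | insert a s ha ih =>
    obtain ⟨F, h1, h2⟩ := ih
    have hd : ∀ x, app (f a) x = ∞ ∨ app F x = ∞ := by
      intro x
      by_cases h3 : app (f a) x = ∞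
      · exact Or.inl h3
      · refine Or.inr ((h1 x).2 fun t ht => ?_)
        by_contra h4
        exact ha (hf x a t h3 h4 ▸ ht)
    refine ⟨H241.join (f a) F hd, fun x => ⟨fun t ht h3 => ?_, fun h3 => ?_⟩, fun T S hX hY => ?_⟩
    · rw [H241.app_join]
      rcases Finset.mem_insert.1 ht with rfl | ht
      · exact H241.joinFun_of_right ((hd x).resolve_left h3)
      · have h4 := (h1 x).1 t ht h3
        rw [H241.joinFun_of_left ((hd x).resolve_right (h4 ▸ h3)), h4]
    · rw [H241.app_join, H241.joinFun_of_left (h3 a (Finset.mem_insert_self a s))]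
      exact (h1 x).2 fun t ht => h3 t (Finset.mem_insert_of_mem ht)
    · rw [Finset.sum_insert ha, ← h2 T S hX hY]
      exact H241.map_join S.toSpaceFunctor (X := ⟨X, fc_toLC hX⟩) (Y := ⟨Y, fc_toLC hY⟩) (f a) F hd

theorem IsSum.map {s : Finset D} {f : D → (X ⟶ Y)} {F : X ⟶ Y} (h : IsSum s f F)
    (hf : ∀ x t t', app (f t) x ≠ ∞ → app (f t') x ≠ ∞ → t = t') {T : SHCat} (S : Susp T)
    (hX : St.FC (ofLC X)) (hY : St.FC (ofLC Y)) : S.mapL F = ∑ t ∈ s, S.mapL (f t) := by
  obtain ⟨F', h1, h2⟩ := exists_isSum f hf s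
  rw [h.unique h1]
  exact h2 T S hX hY

theorem mem_range_of_ne {j : Y → X} (hj : IsOpenEmbedding j) {x : OnePoint X}
    (h : app (ofOpen j hj) x ≠ ∞) : ∃ y, x = (j y : OnePoint X) := by
  induction x using OnePoint.rec with
  | infty => exact absurd (app_infty _) h
  | coe x =>
    by_contra h1
    exact h (app_ofOpen_of_notMem j hj fun ⟨y, hy⟩ => h1 ⟨y, congrArg _ hy.symm⟩)

end sum

section cover

variable {T : SHCat} (S : Susp T) {E : T.C}

theorem whisker_eq_zero {A B C : T.C} (h : St.Acyclic E B) (f : A ⟶ B) (g : B ⟶ C) :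
    E ◁ (f ≫ g) = 0 := by
  have h0 : 𝟙 (E ⊗ B) = 0 := h
  rw [MonoidalCategory.whiskerLeft_comp, ← Category.id_comp (E ◁ g), h0, zero_comp, comp_zero]

/-- A finite disjoint union of acyclic spaces is acyclic. -/
theorem acyclic_cover {Z : Space} {D : Type} [Finite D] {A : D → Space} (hZ : St.FC Z)
    (hA : ∀ t, St.FC (A t)) (j : ∀ t, (A t).carrier → Z.carrier)
    (ho : ∀ t, IsOpenEmbedding (j t)) (hc : ∀ t, IsClosedEmbedding (j t))
    (hd : ∀ t t' a a', j t a = j t' a' → t = t') (hu : ∀ z, ∃ t a, j t a = z)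
    (h : ∀ t, St.Acyclic E (S.obj (A t))) : St.Acyclic E (S.obj Z) := by
  have := Fintype.ofFinite D
  let q : ∀ t, toLC Z ⟶ toLC (A t) := fun t => ofOpen (X := toLC Z) (Y := toLC (A t)) (j t) (ho t)
  let i : ∀ t, toLC (A t) ⟶ toLC Z := fun t => ofClosed (X := toLC (A t)) (Y := toLC Z) (j t) (hc t)
  have hv : ∀ t a, app (q t ≫ i t) ((j t a : Z.carrier) : OnePoint Z.carrier) =
      ((j t a : Z.carrier) : OnePoint Z.carrier) := fun t a => by
    rw [app_comp]
    exact congrArg (app (i t)) (app_ofOpen_coe (X := toLC Z) (Y := toLC (A t)) (j t) (ho t) a)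
  have hr : ∀ t x, app (q t ≫ i t) x ≠ ∞ → ∃ a, x = ((j t a : Z.carrier) : OnePoint Z.carrier) :=
    fun t x hx => mem_range_of_ne (X := toLC Z) (Y := toLC (A t)) (ho t) fun h1 =>
      hx ((congrArg (app (i t)) h1).trans (app_infty _))
  have h1 : IsSum Finset.univ (fun t => q t ≫ i t) (𝟙 (toLC Z)) := by
    refine fun x => ⟨fun t _ hx => ?_, fun hx => ?_⟩
    · obtain ⟨a, rfl⟩ := hr t x hx
      exact (hv t a).symm
    · induction x using OnePoint.rec with
      | infty => rfl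
      | coe x =>
        obtain ⟨t, a, rfl⟩ := hu x
        exact (hv t a).symm.trans (hx t (Finset.mem_univ t))
  have h2 := h1.map (fun x t t' ht ht' => by
    obtain ⟨a, ha⟩ := hr t x ht
    obtain ⟨a', ha'⟩ := hr t' x ht'
    exact hd t t' a a' (OnePoint.coe_injective (ha.symm.trans ha'))) S hZ hZ
  rw [H399.mapL_id S hZ] at h2
  change 𝟙 (E ⊗ S.obj Z) = 0
  rw [← MonoidalCategory.whiskerLeft_id]
  refine (congrArg (fun u => E ◁ u) h2).trans ?_
  rw [whiskerLeft_sum]
  refine Finset.sum_eq_zero fun t _ => ?_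
  rw [H399.mapL_comp S hZ (hA t) hZ]
  exact whisker_eq_zero (h t) _ _

/-- An open and closed part of an acyclic space is acyclic. -/
theorem acyclic_piece {Z A : Space} (hZ : St.FC Z) (hA : St.FC A) (j : A.carrier → Z.carrier)
    (ho : IsOpenEmbedding j) (hc : IsClosedEmbedding j) (h : St.Acyclic E (S.obj Z)) :
    St.Acyclic E (S.obj A) := by
  have h1 : ofClosed (X := toLC A) (Y := toLC Z) j hc ≫ ofOpen (X := toLC Z) (Y := toLC A) j ho =
      𝟙 (toLC A) := by
    apply hom_ext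
    intro a
    exact app_ofOpen_coe (X := toLC Z) (Y := toLC A) j ho a
  change 𝟙 (E ⊗ S.obj A) = 0
  rw [← MonoidalCategory.whiskerLeft_id, ← H399.mapL_id S (X := toLC A) hA, ← h1,
    H399.mapL_comp S hA hZ hA]
  exact whisker_eq_zero h _ _

theorem acyclic_homeo {Z A : Space} (hZ : St.FC Z) (hA : St.FC A) (e : A.carrier ≃ₜ Z.carrier) :
    St.Acyclic E (S.obj Z) ↔ St.Acyclic E (S.obj A) :=
  ⟨acyclic_piece S hZ hA e e.isOpenEmbedding e.isClosedEmbedding,
    acyclic_piece S hA hZ e.symm e.symm.isOpenEmbedding e.symm.isClosedEmbedding⟩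

end cover

variable {G : Type} [Group G]

/-- an equivariant map on fixed points -/
def fixFun {X Y : GSpace G} (j : X.carrier → Y.carrier) (hj : ∀ (g : G) x, j (g • x) = g • j x)
    (H : Subgroup G) (x : (X.fix H).carrier) : (Y.fix H).carrier :=
  ⟨j x.1, fun h => (hj h.1 x.1).symm.trans (congrArg j (x.2 h))⟩

theorem isEmbedding_fixFun {X Y : GSpace G} {j : X.carrier → Y.carrier}
    (hj : ∀ (g : G) x, j (g • x) = g • j x) (H : Subgroup G) (h : IsEmbedding j) :
    IsEmbedding (fixFun j hj H) ∧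
      Set.range (fixFun j hj H) = Subtype.val ⁻¹' Set.range j := by
  refine ⟨(Geo.isClosedEmbedding_fix Y H).isEmbedding.of_comp_iff.1
    (h.comp (Geo.isClosedEmbedding_fix X H).isEmbedding), Set.ext fun y => ⟨?_, ?_⟩⟩
  · rintro ⟨x, rfl⟩
    exact ⟨x.1, rfl⟩
  · rintro ⟨x, hx⟩
    refine ⟨⟨x, fun g => h.injective ?_⟩, Subtype.ext hx⟩
    exact (hj g.1 x).trans ((congrArg _ hx).trans ((y.2 g).trans hx.symm))

theorem isOpen_fixFun {X Y : GSpace G} {j : X.carrier → Y.carrier}
    (hj : ∀ (g : G) x, j (g • x) = g • j x) (H : Subgroup G) (h : IsOpenEmbedding j) :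
    IsOpenEmbedding (fixFun j hj H) := by
  obtain ⟨h1, h2⟩ := isEmbedding_fixFun hj H h.isEmbedding
  exact ⟨h1, h2 ▸ h.isOpen_range.preimage (Geo.isClosedEmbedding_fix Y H).continuous⟩

theorem isClosed_fixFun {X Y : GSpace G} {j : X.carrier → Y.carrier}
    (hj : ∀ (g : G) x, j (g • x) = g • j x) (H : Subgroup G) (h : IsClosedEmbedding j) :
    IsClosedEmbedding (fixFun j hj H) := by
  obtain ⟨h1, h2⟩ := isEmbedding_fixFun hj H h.isEmbedding
  exact ⟨h1, h2 ▸ h.isClosed_range.preimage (Geo.isClosedEmbedding_fix Y H).continuous⟩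

/-- The disjoint union of two `G`-spaces. -/
def gsum (X Y : GSpace G) : GSpace G :=
  haveI : ContinuousConstSMul G (X.carrier ⊕ Y.carrier) :=
    ⟨fun g => (continuous_const_smul g).sumMap (continuous_const_smul g)⟩
  ⟨X.carrier ⊕ Y.carrier⟩

theorem gfc_gsum {X Y : GSpace G} (hX : GFC G X) (hY : GFC G Y) : GFC G (gsum X Y) :=
  gfc_of_disjoint (A := X) (B := gsum X Y) (C := Y) Sum.inl Sum.inr IsOpenEmbedding.inl
    IsOpenEmbedding.inr Set.isCompl_range_inl_range_inr (fun _ _ => rfl) (fun _ _ => rfl) hX hY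

theorem acyclic_gsum [Finite G] {T : SHCat} (S : Susp T) {E : T.C} {X Y : GSpace G} (hX : GFC G X)
    (hY : GFC G Y) (H : Subgroup G) : St.Acyclic E (S.obj ((gsum X Y).fix H)) ↔
      St.Acyclic E (S.obj (X.fix H)) ∧ St.Acyclic E (S.obj (Y.fix H)) := by
  have hZ := fc_fix (gfc_gsum hX hY) H
  have l : ∀ (g : G) (x : X.carrier), (Sum.inl (g • x) : (gsum X Y).carrier) =
      g • (show (gsum X Y).carrier from Sum.inl x) := fun _ _ => rfl
  have r : ∀ (g : G) (x : Y.carrier), (Sum.inr (g • x) : (gsum X Y).carrier) =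
      g • (show (gsum X Y).carrier from Sum.inr x) := fun _ _ => rfl
  have lo := isOpen_fixFun (X := X) (Y := gsum X Y) l H IsOpenEmbedding.inl
  have lc := isClosed_fixFun (X := X) (Y := gsum X Y) l H IsClosedEmbedding.inl
  have ro := isOpen_fixFun (X := Y) (Y := gsum X Y) r H IsOpenEmbedding.inr
  have rc := isClosed_fixFun (X := Y) (Y := gsum X Y) r H IsClosedEmbedding.inr
  refine ⟨fun h => ⟨acyclic_piece S hZ (fc_fix hX H) _ lo lc h,
    acyclic_piece S hZ (fc_fix hY H) _ ro rc h⟩, fun h => ?_⟩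
  refine acyclic_cover S (D := Bool) (A := fun t => Bool.rec (X.fix H) (Y.fix H) t) hZ
    (fun t => by cases t; exacts [fc_fix hX H, fc_fix hY H])
    (fun t => Bool.rec (motive := fun t => (Bool.rec (X.fix H) (Y.fix H) t : Space).carrier →
      ((gsum X Y).fix H).carrier) (fixFun _ l H) (fixFun _ r H) t)
    (fun t => by cases t; exacts [lo, ro]) (fun t => by cases t; exacts [lc, rc]) ?_ ?_
    (fun t => by cases t; exacts [h.1, h.2])
  · intro t t' a a' h1
    cases t <;> cases t'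
    · rfl
    · exact absurd (congrArg Subtype.val h1) Sum.inl_ne_inr
    · exact absurd (congrArg Subtype.val h1) Sum.inr_ne_inl
    · rfl
  · rintro ⟨x | y, hz⟩
    · exact ⟨false, ⟨x, fun g => Sum.inl_injective (hz g)⟩, rfl⟩
    · exact ⟨true, ⟨y, fun g => Sum.inr_injective (hz g)⟩, rfl⟩

/-! ### Induction -/

variable (L : Subgroup G)

/-- the discrete space of cosets -/
def cos : Space :=
  letI : TopologicalSpace (G ⧸ L) := ⊥
  haveI : DiscreteTopology (G ⧸ L) := ⟨rfl⟩
  haveI : LocallyCompactSpace (G ⧸ L) := lc_of_discrete _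
  ⟨G ⧸ L⟩

theorem discrete_cos : DiscreteTopology (cos L).carrier := ⟨rfl⟩

theorem nonempty_cos : Nonempty (cos L).carrier := ⟨((1 : G) : G ⧸ L)⟩

/-- the cocycle -/
def kap (g : G) (c : G ⧸ L) : L := ⟨(g • c).out⁻¹ * (g * c.out), by
  rw [← QuotientGroup.eq, QuotientGroup.out_eq']
  conv_lhs => rw [← QuotientGroup.out_eq' c]
  rfl⟩

theorem kap_one (c : G ⧸ L) : kap L 1 c = 1 := Subtype.ext (by simp [kap])

theorem kap_mul (g h : G) (c : G ⧸ L) : kap L (g * h) c = kap L g (h • c) * kap L h c :=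
  Subtype.ext (by simp [kap, mul_smul, mul_assoc])

/-- The twisted action on `I × G/L`. -/
@[reducible] def twist (I : Type) [MulAction L I] : MulAction G (I × (G ⧸ L)) where
  smul g x := (kap L g x.2 • x.1, g • x.2)
  one_smul x := Prod.ext (by
    change kap L 1 x.2 • x.1 = x.1
    rw [kap_one, one_smul]) (one_smul G x.2)
  mul_smul g h x := Prod.ext (by
    change kap L (g * h) x.2 • x.1 = kap L g (h • x.2) • kap L h x.2 • x.1
    rw [kap_mul, mul_smul]) (mul_smul g h x.2)

/-- The induced space `G ×_L X`. -/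
def ind (X : GSpace L) : GSpace G :=
  letI : MulAction G (X.carrier × (cos L).carrier) := twist L X.carrier
  haveI : ContinuousConstSMul G (X.carrier × (cos L).carrier) := ⟨fun g => by
    have := discrete_cos L
    exact continuous_prod_of_discrete_right.2 fun c =>
      Continuous.prodMk (Y := (cos L).carrier) (continuous_const_smul (kap L g c))
        (@continuous_const _ _ _ (cos L).top (g • (show G ⧸ L from c) : G ⧸ L))⟩
  ⟨X.carrier × (cos L).carrier⟩

/-- the cosets with the trivial action -/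
abbrev dd : GSpace L := GSpace.triv L (cos L)

/-- a coset as a point -/
abbrev cp (c : G ⧸ L) : OnePoint (cos L).carrier := .some c

variable {L} {A B C : GSpace L}

theorem ind_smul (g : G) (x : A.und.Pt) (c : G ⧸ L) :
    (ind L A).smul g (LC.smash x (cp L c)) = LC.smash (A.smul (kap L g c) x) (cp L (g • c)) := by
  induction x using OnePoint.rec with
  | infty => rfl
  | coe x => rfl

theorem ind_surj (p : (ind L A).und.Pt) : ∃ (x : A.und.Pt) (c : G ⧸ L), LC.smash x (cp L c) = p :=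
  @smash_coe_surjective _ _ (nonempty_cos L) p

theorem isGMap_ind_of {F : (ind L A).und.Pt → (ind L B).und.Pt} {f : A.und.Pt → B.und.Pt}
    (hf : IsGMap (X := A) (Y := B) f)
    (hF : ∀ x c, F (LC.smash x (cp L c)) = LC.smash (f x) (cp L c)) :
    IsGMap (X := ind L A) (Y := ind L B) F := by
  intro g p
  obtain ⟨a, c, rfl⟩ := ind_surj p
  rw [ind_smul, hF, hF, ind_smul, hf]

theorem isGMap_ind {f : toLC A.und ⟶ toLC B.und} (hf : IsGMap (X := A) (Y := B) (app f)) :
    IsGMap (X := ind L A) (Y := ind L B) (app (f ▷ toLC (cos L))) :=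
  isGMap_ind_of hf fun x c => app_whiskerRight_smash f (toLC (cos L)) x (cp L c)

theorem gHomotopic_ind {f g : toLC A.und ⟶ toLC B.und}
    (h : GHomotopic (X := A) (Y := B) (app f) (app g)) :
    GHomotopic (X := ind L A) (Y := ind L B) (app (f ▷ toLC (cos L)))
      (app (g ▷ toLC (cos L))) := by
  obtain ⟨H, ⟨hH, hG⟩, h0, h1⟩ := h
  let K : (toLC A.und ⊗ toLC (cos L)) ⊗ II ⟶ toLC B.und ⊗ toLC (cos L) :=
    (shuf (toLC A.und) (toLC (cos L))).hom ≫ htpyMap H hH ▷ toLC (cos L)
  have hK : ∀ (a : A.und.Pt) (d : (cos L).Pt) (t : unitInterval),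
      app K (LC.smash (LC.smash a d) (t : OnePoint unitInterval)) = LC.smash (H t a) d := by
    intro a d t
    change app (htpyMap H hH ▷ toLC (cos L)) (app (shuf (toLC A.und) (toLC (cos L))).hom
      (LC.smash (LC.smash a d) (t : OnePoint unitInterval))) = _
    rw [app_shuf, app_whiskerRight_smash]
    exact congrArg (fun x => LC.smash x d) (app_htpyMap H hH a t)
  refine ⟨fun t x => app K (LC.smash x (t : OnePoint unitInterval)),
    ⟨isHtpy_of_hom (X := (ind L A).und) (Y := (ind L B).und) K,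
      fun t => isGMap_ind_of (hG t) fun x c => hK x _ t⟩, ?_, ?_⟩
  · funext p
    obtain ⟨a, d, rfl⟩ := ind_surj p
    refine (hK a _ 0).trans ?_
    rw [h0]
    exact (app_whiskerRight_smash f (toLC (cos L)) a _).symm
  · funext p
    obtain ⟨a, d, rfl⟩ := ind_surj p
    refine (hK a _ 1).trans ?_
    rw [h1]
    exact (app_whiskerRight_smash g (toLC (cos L)) a _).symm

theorem gHEquiv_ind (h : GHEquiv A B) : GHEquiv (ind L A) (ind L B) := by
  obtain ⟨f, g, hf, hg, h1, h2⟩ := h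
  refine ⟨ofHom (X := (ind L A).und) (Y := (ind L B).und) (toHom f ▷ toLC (cos L)),
    ofHom (X := (ind L B).und) (Y := (ind L A).und) (toHom g ▷ toLC (cos L)),
    isGMap_ind (f := toHom f) hf, isGMap_ind (f := toHom g) hg, ?_, ?_⟩
  · have h4 := gHomotopic_ind (f := toHom f ≫ toHom g) (g := 𝟙 (toLC A.und)) h1
    rw [comp_whiskerRight, id_whiskerRight] at h4
    exact h4
  · have h4 := gHomotopic_ind (f := toHom g ≫ toHom f) (g := 𝟙 (toLC B.und)) h2
    rw [comp_whiskerRight, id_whiskerRight] at h4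
    exact h4

theorem gcofib_ind {i : Map A.und B.und} (hG : IsGMap (X := A) (Y := B) i.toFun)
    (hi : GCofib (A := A) (B := B) i) :
    GCofib (A := ind L A) (B := ind L B)
      (ofHom (X := (ind L A).und) (Y := (ind L B).und) (toHom i ▷ toLC (cos L))) := by
  obtain ⟨r, hr, hrG⟩ := exists_isRetr_of_gcofib hG hi
  let r' : (toLC B.und ⊗ toLC (cos L)) ⊗ II ⟶ (toLC B.und ⊗ toLC (cos L)) ⊗ II :=
    (shuf (toLC B.und) (toLC (cos L))).hom ≫ r ▷ toLC (cos L) ≫
      (shuf (toLC B.und) (toLC (cos L))).inv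
  have hr' : ∀ (b : B.und.Pt) (c : (cos L).Pt) (t t' : unitInterval) (b' : B.und.Pt),
      app r (LC.smash b (t : OnePoint unitInterval)) = LC.smash b' (t' : OnePoint unitInterval) →
      app r' (LC.smash (LC.smash b c) (t : OnePoint unitInterval)) =
        LC.smash (LC.smash b' c) (t' : OnePoint unitInterval) := by
    intro b c t t' b' h
    change app (shuf (toLC B.und) (toLC (cos L))).inv (app (r ▷ toLC (cos L))
      (app (shuf (toLC B.und) (toLC (cos L))).hom (LC.smash (LC.smash b c) t))) = _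
    rw [app_shuf, app_whiskerRight_smash, h, app_shuf_inv]
  have hir : ∀ (a : A.und.Pt) (c : (cos L).Pt), (ofHom (X := (ind L A).und)
      (Y := (ind L B).und) (toHom i ▷ toLC (cos L))).toFun (LC.smash a c) =
      LC.smash (i.toFun a) c := fun a c => app_whiskerRight_smash (toHom i) (toLC (cos L)) a c
  refine gcofib_of_isRetr (A := ind L A) (B := ind L B) (isGMap_ind (f := toHom i) hG)
    (injective_of_gcofib (A := A.prod (dd L)) (B := B.prod (dd L)) (gcofib_prodRight (dd L) hG hi))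
    (r := r') ⟨?_, ?_, ?_⟩ ?_
  · intro p
    obtain ⟨b, c, rfl⟩ := ind_surj p
    exact hr' b _ 0 0 b (hr.zero b)
  · rintro _ ⟨p, rfl⟩ t
    obtain ⟨a, c, rfl⟩ := ind_surj p
    rw [hir]
    exact hr' _ _ t t _ (hr.mem _ ⟨a, rfl⟩ t)
  · intro p
    obtain ⟨q, t, rfl⟩ := smash_coe_surjective (X := (ind L B).carrier) (Y := unitInterval) p
    obtain ⟨b, c, rfl⟩ := ind_surj q
    obtain ⟨b', t', h1, h2⟩ := hr.range (LC.smash b (t : OnePoint unitInterval))
    refine ⟨_, t', hr' b _ t t' b' h1, h2.imp id ?_⟩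
    rintro ⟨a, rfl⟩
    exact ⟨LC.smash a (cp L c), hir a _⟩
  · intro g p t
    obtain ⟨b, c, rfl⟩ := ind_surj p
    obtain ⟨b', t', h1, -⟩ := hr.range (LC.smash b (t : OnePoint unitInterval))
    have h3 : app r (LC.smash (B.smul (kap L g c) b) (t : OnePoint unitInterval)) =
        LC.smash (B.smul (kap L g c) b') (t' : OnePoint unitInterval) :=
      (hrG _ b t).trans ((congrArg _ h1).trans (smul_smash B ⟨unitInterval⟩ _ b' _))
    rw [ind_smul]
    refine (hr' _ _ t t' _ h3).trans ?_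
    refine Eq.trans ?_ (congrArg _ (hr' b _ t t' b' h1)).symm
    refine Eq.trans ?_ (smul_smash (ind L B) ⟨unitInterval⟩ g _ _).symm
    rw [ind_smul]
    rfl

/-- the induced space of a cell -/
def indCell (V : Subgroup L) (n : ℕ) :
    (@dset G _ ((L ⧸ V) × (G ⧸ L)) (twist L (L ⧸ V)) n).carrier ≃ₜ (ind L (cell L V n)).carrier where
  toFun x := ((x.1.1, x.2), x.1.2)
  invFun x := ((x.1.1, x.2), x.1.2)
  left_inv _ := rfl
  right_inv _ := rfl
  continuous_toFun := by
    let _ : TopologicalSpace (L ⧸ V) := ⊥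
    let _ : TopologicalSpace (G ⧸ L) := ⊥
    let t : TopologicalSpace ((L ⧸ V) × (G ⧸ L)) := ⊥
    have ht : @DiscreteTopology _ t := ⟨rfl⟩
    refine (@continuous_prod_of_discrete_left _ (Fin n → ℝ) (((L ⧸ V) × (Fin n → ℝ)) × (G ⧸ L))
      t _ _ ht _).2 fun a => ?_
    change Continuous fun x : Fin n → ℝ => ((a.1, x), a.2)
    fun_prop
  continuous_invFun := by
    let _ : TopologicalSpace (L ⧸ V) := ⊥
    have _ : DiscreteTopology (L ⧸ V) := ⟨rfl⟩
    let _ : TopologicalSpace (G ⧸ L) := ⊥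
    have _ : DiscreteTopology (G ⧸ L) := ⟨rfl⟩
    have hd : (inferInstance : TopologicalSpace ((L ⧸ V) × (G ⧸ L))) = ⊥ :=
      (inferInstance : DiscreteTopology ((L ⧸ V) × (G ⧸ L))).eq_bot
    have h1 : Continuous fun x : ((L ⧸ V) × (Fin n → ℝ)) × (G ⧸ L) => (x.1.1, x.2) := by fun_prop
    have h2 : @Continuous _ _ _ ⊥
        fun x : ((L ⧸ V) × (Fin n → ℝ)) × (G ⧸ L) => (x.1.1, x.2) := hd ▸ h1
    have h3 : Continuous fun x : ((L ⧸ V) × (Fin n → ℝ)) × (G ⧸ L) => x.1.2 := by fun_prop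
    exact @Continuous.prodMk _ _ _ ⊥ _ _ _ _ h2 h3

/-- **Induction preserves finite cell spaces.** -/
theorem gfc_ind [Finite G] {X : GSpace L} (hX : GFC L X) : GFC G (ind L X) := by
  induction hX with
  | empty => exact gfc_of_isEmpty ⟨fun x => Empty.elim x.1⟩
  | cell V n =>
    exact gfc_of_homeo (@gfc_finset G _ _ (twist L (L ⧸ V)) _ n) (indCell V n) fun _ _ => rfl
  | hequiv _ h ih => exact .hequiv ih (gHEquiv_ind h)
  | @ext A B C i q hi hq hcof hquot _ _ ihA ihC =>
    exact GFC.ext (A := ind L A) (B := ind L B) (C := ind L C)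
      (i := ofHom (X := (ind L A).und) (Y := (ind L B).und) (toHom i ▷ toLC (cos L)))
      (q := ofHom (X := (ind L B).und) (Y := (ind L C).und) (toHom q ▷ toLC (cos L)))
      (isGMap_ind (f := toHom i) hi) (isGMap_ind (f := toHom q) hq)
      (gcofib_ind hi hcof) (isQuot_prodRight (dd L) hquot) ihA ihC

/-- the conjugate subgroup `g H g⁻¹` -/
abbrev cj (g : G) (H : Subgroup G) : Subgroup G := H.map (MulAut.conj g).toMonoidHom

section fix

variable (X : GSpace L) {H : Subgroup G} {c : G ⧸ L} (hc : ∀ h ∈ H, h • c = c)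

include hc in
theorem kap_fix {h : G} (hh : h ∈ H) : (kap L h c : G) = MulAut.conj c.out⁻¹ h := by
  change (h • c).out⁻¹ * (h * c.out) = _
  rw [hc h hh]
  simp [mul_assoc]

include hc in
theorem cj_le : cj c.out⁻¹ H ≤ L := by
  rintro _ ⟨h, hh, rfl⟩
  have h1 := (kap L h c).2
  rwa [kap_fix hc hh] at h1

/-- the fixed points over a fixed coset -/
def over (x : (X.fix ((cj c.out⁻¹ H).subgroupOf L)).carrier) : ((ind L X).fix H).carrier :=
  ⟨(x.1, c), fun h => Prod.ext (x.2 ⟨kap L h.1 c, h.1, h.2, (kap_fix hc h.2).symm⟩) (hc h.1 h.2)⟩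

theorem range_over : Set.range (over X hc) = {z | (z.1.2 : (cos L).carrier) = c} := by
  refine Set.ext fun z => ⟨?_, fun hz => ?_⟩
  · rintro ⟨x, rfl⟩
    rfl
  · obtain ⟨⟨x, d⟩, h1⟩ := z
    obtain rfl : d = c := hz
    refine ⟨⟨x, ?_⟩, rfl⟩
    rintro ⟨l, h, hh, h2⟩
    obtain rfl : l = kap L h d := Subtype.ext (h2.symm.trans (kap_fix hc hh).symm)
    exact congrArg Prod.fst (h1 ⟨h, hh⟩)

theorem emb_over : IsOpenEmbedding (over X hc) ∧ IsClosedEmbedding (over X hc) := by
  have := discrete_cos L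
  have h1 : IsEmbedding (over X hc) :=
    (Geo.isClosedEmbedding_fix (ind L X) H).isEmbedding.of_comp_iff.1
      ((isEmbedding_prodMkLeft (X := X.carrier) (Y := (cos L).carrier) c).comp
        (Geo.isClosedEmbedding_fix X _).isEmbedding)
  have h2 : Continuous fun z : ((ind L X).fix H).carrier => (z.1.2 : (cos L).carrier) :=
    (continuous_snd (X := X.carrier) (Y := (cos L).carrier)).comp
      (Geo.isClosedEmbedding_fix (ind L X) H).continuous
  refine ⟨⟨h1, ?_⟩, ⟨h1, ?_⟩⟩
  · rw [range_over]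
    exact (isOpen_discrete {show (cos L).carrier from c}).preimage h2
  · rw [range_over]
    exact (isClosed_discrete {show (cos L).carrier from c}).preimage h2

variable [Finite G] {T : SHCat} (S : Susp T) {E : T.C} {X}

theorem acyclic_ind (hX : GFC L X) (h : ∀ g : G, cj g H ≤ L →
    St.Acyclic E (S.obj (X.fix ((cj g H).subgroupOf L)))) :
    St.Acyclic E (S.obj ((ind L X).fix H)) := by
  refine acyclic_cover S (D := {c : G ⧸ L // ∀ h ∈ H, h • c = c})
    (A := fun c => X.fix ((cj c.1.out⁻¹ H).subgroupOf L)) (fc_fix (gfc_ind hX) H)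
    (fun c => fc_fix hX _) (fun c => over X c.2) (fun c => (emb_over X c.2).1)
    (fun c => (emb_over X c.2).2) (fun c d a b e => Subtype.ext ?_) (fun z => ?_)
    fun c => h _ (cj_le c.2)
  · exact congrArg (fun z : ((ind L X).fix H).carrier => z.1.2) e
  · have h1 : ∀ h ∈ H, h • (show G ⧸ L from z.1.2) = z.1.2 := fun h hh =>
      congrArg Prod.snd (z.2 ⟨h, hh⟩)
    exact ⟨⟨_, h1⟩, (Set.ext_iff.1 (range_over X h1) z).2 rfl⟩

theorem acyclic_of_ind (hX : GFC L X) (h : St.Acyclic E (S.obj ((ind L X).fix L))) :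
    St.Acyclic E (S.obj (X.fix ⊤)) := by
  have h1 : ∀ l ∈ L, l • ((1 : G) : G ⧸ L) = ((1 : G) : G ⧸ L) := fun l hl =>
    QuotientGroup.eq.2 (by simpa using hl)
  have h2 : ((1 : G) : G ⧸ L).out ∈ L := by
    simpa using QuotientGroup.eq.1 (QuotientGroup.out_eq' ((1 : G) : G ⧸ L)).symm
  have h3 : (cj ((1 : G) : G ⧸ L).out⁻¹ L).subgroupOf L = ⊤ := by
    refine eq_top_iff.2 fun l _ => ⟨_, L.mul_mem (L.mul_mem h2 l.2) (L.inv_mem h2), ?_⟩
    simp [mul_assoc]
  rw [← h3]
  exact acyclic_piece S (fc_fix (gfc_ind hX) L) (fc_fix hX _) _ (emb_over X h1).1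
    (emb_over X h1).2 h

end fix

end Vale.Agent.N241
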