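import Vale.Agent.P241GX.St

/-!
# The stable homotopy category, Morava `K`-theories, the chromatic fixed point loss

* `SM`, `IsSH` : the stable homotopy category as the localization of orthogonal spectra;
* `Rg`, `Orient`, `Morava` : ring spectra, complex orientations, Morava `K`-theories;
* `IsCpt`, `FinSp` : compact objects, finite `p`-local genuine `G`-spectra;
* `Vanish`, `Implies`, `rLoss`, `ell` : the numbers `r_n(G, H)` and `ℓ(G, H)`.
-/

open CategoryTheory MonoidalCategory Matrix Limits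

noncomputable section

namespace Vale.Agent.N241

open P251.St P251CX

/-- A symmetric monoidal preadditive category with the data of a functor `X ↦ Σ^∞ X⁺`. -/
structure SM where
  /-- the objects (spectra) -/
  Sp : Type 1
  [ca : Category.{0} Sp]
  [ad : Preadditive Sp]
  [mn : MonoidalCategory Sp]
  [sy : SymmetricCategory Sp]
  /-- the suspension spectrum of `X⁺` -/
  ssp : Space → Sp
  /-- functoriality -/
  sm : ∀ {X Y}, Map X Y → (ssp X ⟶ ssp Y)
  /-- the map `Σ^∞ X⁺ ⊗ Σ^∞ Y⁺ ⟶ Σ^∞ (X⁺ ∧ Y⁺)` -/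
  sx : ∀ X Y, ssp X ⊗ ssp Y ⟶ ssp (X.prod Y)
  /-- the map from the unit to `Σ^∞` of the point -/
  su : 𝟙_ Sp ⟶ ssp Pn

attribute [instance] SM.ca SM.ad SM.mn SM.sy

variable {T : SM}

/-- morphisms -/
abbrev Hm (A B : T.Sp) : Type := A ⟶ B

/-- the unit (the sphere spectrum) -/
abbrev SM.un (T : SM) : T.Sp := 𝟙_ T.Sp

/-- the tensor product (smash product of spectra) -/
abbrev tn (A B : T.Sp) : T.Sp := A ⊗ B

variable {A B C D : T.Sp}

/-- the identity -/
abbrev idt (A : T.Sp) : Hm A A := 𝟙 A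

/-- the composition, in diagrammatic order -/
abbrev cm (f : Hm A B) (g : Hm B C) : Hm A C := f ≫ g

/-- the tensor product of two morphisms -/
abbrev tm (f : Hm A B) (g : Hm C D) : Hm (tn A C) (tn B D) := f ⊗ₘ g

/-- the left unit -/
abbrev lu (A : T.Sp) : Hm (tn T.un A) A := (λ_ A).hom

/-- the interchange `(A ⊗ B) ⊗ (C ⊗ D) ⟶ (A ⊗ C) ⊗ (B ⊗ D)` -/
abbrev ex (A B C D : T.Sp) : Hm (tn (tn A B) (tn C D)) (tn (tn A C) (tn B D)) := tensorμ A B C D

/-- the multiple `a f` of a morphism by an integer -/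
abbrev zm (a : ℤ) (f : Hm A B) : Hm A B := a • f

/-- `f` is zero -/
abbrev Nul (f : Hm A B) : Prop := f = 0

/-- the map `T.sx` -/
abbrev SM.mx (T : SM) (X Y) : Hm (tn (T.ssp X) (T.ssp Y)) (T.ssp (X.prod Y)) := T.sx X Y

/-- the map `T.su` -/
abbrev SM.et (T : SM) : Hm T.un (T.ssp Pn) := T.su

/-- the associativity -/
abbrev asc (A B D : T.Sp) : Hm (tn (tn A B) D) (tn A (tn B D)) := (α_ A B D).hom

/-- the symmetry -/
abbrev swp (A B : T.Sp) : Hm (tn A B) (tn B A) := (β_ A B).hom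

/-- the square commutes -/
abbrev Sqr {A B C D : T.Sp} (f : Hm A B) (g : Hm A C) (h : Hm B D) (k : Hm C D) : Prop :=
  cm f h = cm g k

/-- `T` is the stable homotopy category with the suspension spectrum functor. -/
structure IsSH (T : SM) where
  /-- the localization functor on objects -/
  Lo : OSp → T.Sp
  /-- the localization functor on morphisms -/
  lo : ∀ {X Y}, Mor X Y → Hm (Lo X) (Lo Y)
  lo_id : ∀ X, lo (idm X) = idt _
  lo_comp : ∀ {X Y Z} (f : Mor X Y) (g : Mor Y Z), lo (cmp f g) = cm (lo f) (lo g)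
  loc : (⟨Lo, lo, lo_id, lo_comp⟩ : OSp ⥤ T.Sp).IsLocalization piIso
  /-- the lax symmetric monoidal structure -/
  lx : ∀ {X Y Z}, Bim X Y Z → Hm (tn (Lo X) (Lo Y)) (Lo Z)
  /-- the comparison of suspension spectra -/
  io : ∀ {A X}, Pm A X 0 → Hm (T.ssp A) (Lo X)
  flat : ∀ X, ∃ Y f, IsFlat Y ∧ piIso Y X f
  lx_iso : ∀ X Y, ∃ Z, ∃ b : Bim X Y Z, IsUniv b ∧ (IsFlat Y → IsIso (lx b))
  lx_nat : ∀ X Y Z X' Y' Z' (b : Bim X Y Z) (b' : Bim X' Y' Z') f g h, Sq b b' f g h →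
    Sqr (lx b) (tm (lo f) (lo g)) (lo h) (lx b')
  /-- the levels `k + m + n` and `k + (m + n)` are the same -/
  lx_assoc : ∀ X Y Z X' Y' Z' (a : Bim X Y X') (b : Bim X' Z Z') (b' : Bim Y Z Y')
    (d : Bim X Y' Z'), (∀ k m n (x : X.sp k) (y : Y.sp m) (z : Z.sp n),
      HEq (b.ev (a.ev x y) z) (d.ev x (b'.ev y z))) →
    Sqr (tm (lx a) (idt _)) (cm (asc ..) (tm (idt _) (lx b'))) (lx b) (lx d)
  lx_comm : ∀ X Y Z (b : Bim X Y Z) (b' : Bim Y X Z),
    (∀ m n h, (∀ s t, ap h (Fin.append s t) = Fin.append t s) →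
      ∀ (x : X.sp m) (y : Y.sp n), Z.ac h (b.ev x y) = b'.ev y x) → lx b = cm (swp ..) (lx b')
  lx_unit : ∀ X Y Z (b : Bim X Y Z) (u : Pm Pn Y 0) (g : Mor X Z),
    (∀ n x, g.app n x = b.ev x (u.fn (.some ()))) →
    Sqr (tm (idt _) (cm T.et (io u))) (cm (swp ..) (lu _)) (lx b) (lo g)
  io_iso : ∀ A, FC A → ∃ X, ∃ u : Pm A X 0, IsFree u ∧ IsFlat X ∧ IsIso (io u)
  io_nat : ∀ A B X Y (u : Pm A X 0) (v : Pm B Y 0) (a : Map A B) (f : Mor X Y), FC A → FC B →
    (∀ x, v.fn (a.toFun x) = f.app 0 (u.fn x)) → Sqr (T.sm a) (io u) (io v) (lo f)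
  io_mul : ∀ A B X Y Z (u : Pm A X 0) (v : Pm B Y 0) (w : Pm (A.prod B) Z 0) (b : Bim X Y Z),
    FC A → FC B → (∀ x y, w.fn (smash x y) = b.ev (u.fn x) (v.fn y)) →
    Sqr (T.mx A B) (tm (io u) (io v)) (io w) (lx b)

/-- A homotopy associative ring spectrum. -/
structure Rg (T : SM) where
  /-- the underlying spectrum -/
  ob : T.Sp
  [mo : MonObj ob]

attribute [instance] Rg.mo

variable (R K : Rg T)

/-- the multiplication -/
abbrev Rg.mu : Hm (tn K.ob K.ob) K.ob := MonObj.mul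

/-- the homotopy group `π_0 K` -/
abbrev Rg.pz : Type := Hm T.un K.ob

/-- the unit -/
abbrev Rg.eta : K.pz := MonObj.one

/-- the homotopy group `π_{a - b} K` -/
abbrev Rg.pi (a b : ℕ) : Type := Hm (T.ssp (Rn a)) (tn K.ob (T.ssp (Rn b)))

/-- `π_k K = 0` unless `d` divides `k`, and `π_0 K = 𝔽_p`. -/
structure PerField (p : ℕ) (d : ℤ) : Prop where
  sparse : ∀ (a b : ℕ) (f : K.pi a b), ¬ d ∣ a - b → Nul f
  char : Nul (zm p K.eta)
  ne : ¬ Nul K.eta
  gen : ∀ f : K.pz, ∃ a, f = zm a K.eta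

/-- `K` is the rational Eilenberg-Mac Lane spectrum: `π_* K = ℚ` in degree `0`. -/
structure Rat0 : Prop where
  conc : ∀ a b (f : K.pi a b), a ≠ b → Nul f
  ne : ¬ Nul K.eta
  div : ∀ m ≠ 0, Function.Bijective fun f : K.pz => zm m f
  gen : ∀ f : K.pz, ∃ a m, m ≠ 0 ∧ zm m f = zm a K.eta

/-- The space `ℂ^n` (`(ℂ^n)⁺` is the sphere of dimension `2 n`). -/
abbrev Cn (n : ℕ) : Space := ⟨Fin n → ℂ⟩

/-- `P` is an orthogonal projection of rank `n` of `ℂ^A`. -/
def IsProj (n : ℕ) {A : Type} [Fintype A] (P : Matrix A A ℂ) : Prop :=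
  P * P = P ∧ Pᴴ = P ∧ P.trace = n

/-- The total space of the tautological bundle over the Grassmannian of `n`-dimensional subspaces
of `ℂ^A`: pairs `(P, v)` of a projection and a vector in its image. -/
abbrev ThSet (n : ℕ) (A : Type) [Fintype A] : Set (Matrix A A ℂ × (A → ℂ)) :=
  {x | IsProj n x.1 ∧ x.1 *ᵥ x.2 = x.2}

/-- The projective space of `ℂ^A`: projections of rank one. -/
abbrev CPSet (A : Type) [Fintype A] : Set (Matrix A A ℂ) := {P | IsProj 1 P}

/-- The Thom space of the tautological bundle is `(Th n A)⁺`. -/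
def Th (n : ℕ) (A : Type) [Fintype A] : Space :=
  haveI : LocallyCompactSpace (ThSet n A) := id (lc_th n A)
  ⟨ThSet n A⟩

/-- The projective space of `ℂ^A`. -/
def CP (A : Type) [Fintype A] : Space :=
  haveI : LocallyCompactSpace (CPSet A) := id (lc_cp A)
  ⟨CPSet A⟩

/-- `f : X⁺ → (Th n A)⁺` is the map `x ↦ (P x, v x)`. -/
def IsPair {X : Space} {n : ℕ} {A : Type} [Fintype A] (P : X.carrier → Matrix A A ℂ)
    (v : X.carrier → A → ℂ) (f : Map X (Th n A)) : Prop :=
  ∀ x : X.carrier, ∃ y : (Th n A).carrier, f.toFun (Space.pt x) = Space.pt y ∧ y.1 = (P x, v x)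

/-- the sphere of dimension `2 n` -/
abbrev SM.es (T : SM) (n : ℕ) : T.Sp := T.ssp (Cn n)

/-- the suspension `Σ^{2n} K` -/
abbrev Rg.sh (n : ℕ) : T.Sp := tn K.ob (T.es n)

/-- The cohomology group `K^{2n}(X⁺)`. -/
abbrev Rg.co (n : ℕ) (X : Space) : Type := Hm (T.ssp X) (K.sh n)

variable {R K} {n m l : ℕ} {X Y : Space}

/-- the pullback of a cohomology class -/
abbrev pull (f : Map X Y) (c : K.co n Y) : K.co n X := cm (T.sm f) c

/-- the image of a cohomology class under a map of ring spectra -/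
abbrev fwd (u : Hm R.ob K.ob) (x : R.co n X) : K.co n X := cm x (tm u (idt _))

/-- the product `Σ^{2n} K ⊗ Σ^{2m} K ⟶ Σ^{2l} K` given by a map `g` of spheres -/
abbrev prd (g : Map ((Cn n).prod (Cn m)) (Cn l)) : Hm (tn (K.sh n) (K.sh m)) (K.sh l) :=
  cm (ex ..) (tm K.mu (cm (T.mx ..) (T.sm g)))

/-- `z ∈ K^{2(n+m)}(X⁺ ∧ Y⁺)` is the external product of `x ∈ K^{2n}(X⁺)` and `y ∈ K^{2m}(Y⁺)`. -/
def Cross (x : K.co n X) (y : K.co m Y) (z : K.co (n + m) (X.prod Y)) : Prop :=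
  ∀ g : Map _ (Cn (n + m)), (∀ a b, g.toFun (.some (a, b)) = .some (Fin.append a b)) →
    cm (T.mx X Y) z = cm (tm x y) (prd g)

/-- the projection of a point of the tautological bundle -/
abbrev mat {I} [Fintype I] (x : (Th n I).carrier) : Matrix I I ℂ := x.1.1

/-- the vector of a point of the tautological bundle -/
abbrev vec {I} [Fintype I] (x : (Th n I).carrier) : I → ℂ := x.1.2

/-- A complex orientation of the ring spectrum `R`: a multiplicative family of Thom classes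
`th n I ∈ R^{2n}(Th n I)` of the tautological bundles, compatible with isometries and direct sums
and normalised on the fibre `ℂ^n`. -/
structure Orient (R : Rg T) where
  /-- the Thom classes -/
  th (n I) [Fintype I] : R.co n (Th n I)
  isom : ∀ {n I J} [Fintype I] [Fintype J] [DecidableEq I] (u : Matrix J I ℂ) f, uᴴ * u = 1 →
    IsPair (fun x => u * mat x * uᴴ) (fun x => u *ᵥ vec x) f → pull f (th n J) = th n I
  sum : ∀ {n m I J} [Fintype I] [Fintype J] f, IsPair (X := (Th n I).prod (Th m J))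
    (fun x => fromBlocks (mat x.1) 0 0 (mat x.2)) (fun x => Sum.elim (vec x.1) (vec x.2)) f →
    Cross (th n I) (th m J) (pull f (th (n + m) (I ⊕ J)))
  fibre : ∀ n (f : Map (Cn n) _), IsPair (fun _ => 1) (fun x => x) f →
    cm (lu _) (pull f (th n (Fin n))) = tm R.eta (idt _)

/-- `f` is the zero section `x ↦ (P x, 0)` of a bundle over the projective space of `ℂ^I`. -/
def IsSec {I J} [Fintype I] [Fintype J] (P : Matrix I I ℂ → Matrix J J ℂ)
    (f : Map (CP I) (Th n J)) : Prop :=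
  IsPair (fun x : CPSet I => P x.1) (fun _ _ => 0) f

variable (u : Hm R.ob K.ob) (o : Orient R) (p : ℕ)

/-- The equation `x ^ (n + 1) = w [p](x)` on the projective space of `ℂ^I`: `e` is the zero section
of `n + 1` copies of the tautological line bundle, and `t` is the one of its `p`-th tensor
power. -/
def PEq (w : K.co n Pn) (I) [Fintype I] : Prop :=
  ∀ e t (q : Map (Pn.prod (CP I)) (CP I)),
    IsSec (fun x (i j : Fin (n + 1) × I) => if i.1 = j.1 then x i.2 j.2 else 0) e →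
    IsSec (fun x (i j : Fin p → I) => ∏ k, x (i k) (j k)) t →
    (∀ x, q.toFun (.some ((), x)) = .some x) →
    Cross w (pull t (fwd u (o.th 1 _))) (pull q (pull e (fwd u (o.th (n + 1) _))))

/-- `u : R ⟶ K` is a map from a ring spectrum `R` with the complex orientation `o`.
The `p`-series of the induced orientation of `K` is `[p](x) = v x ^ (n + 1)` modulo `x ^ (n + 2)`
with an invertible `v ∈ π_{2n} K`; here `w ∈ K^{2n}(pt)` is the inverse of `v`. -/
def PSer (n : ℕ) : Prop :=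
  ∃ (v : Hm (T.es n) K.ob) (w : K.co n Pn),
    cm T.et (cm w (cm (tm (idt _) v) K.mu)) = K.eta ∧ PEq u o p w (Fin (n + 2))

/-- `K` is a Morava `K`-theory of height `n` at the prime `p`. -/
def Morava (n : ℕ) (K : Rg T) : Prop :=
  if n = 0 then Rat0 K else PerField K p (2 * (p ^ n - 1)) ∧
    ∃ (R : Rg T) (u : Hm R.ob K.ob) (o : Orient R),
      IsCommMonObj R.ob ∧ IsMonHom u ∧ PSer u o p (p ^ n - 1)

/-- Compact objects of a preadditive category: every map to a coproduct factors through a finite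
part of the coproduct. -/
def IsCpt {E : Type 1} [Category.{1} E] [Preadditive E] (A : E) : Prop :=
  ∀ (I : Type) (B : I → E) (c : Cofan B), IsColimit c →
    ∀ f : A ⟶ c.pt, ∃ (s : Finset I) (g : ∀ i, A ⟶ B i), f = ∑ i ∈ s, g i ≫ c.inj i

open P241GX (Ho Pl IsPhi)

variable {G : Type} [Group G] (H : Subgroup G)

/-- There is a chain `H = c 0 ⊴ c 1 ⊴ ⋯ ⊴ c s = G` with cyclic quotients. -/
def HasCyclicChain (s : ℕ) : Prop :=
  ∃ c : ℕ → Subgroup G, c 0 = H ∧ c s = ⊤ ∧ ∀ i < s, c i ≤ c (i + 1) ∧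
    ∃ _ : ((c i).subgroupOf (c (i + 1))).Normal,
      IsCyclic (c (i + 1) ⧸ (c i).subgroupOf (c (i + 1)))

/-- The number `ℓ(G, H)`. -/
def ell : ℕ := sInf {s | HasCyclicChain H s}

variable [Finite G] [Preadditive (Ho G)]

/-- Finite `p`-local genuine `G`-spectra: the compact objects among the `p`-local ones. -/
def FinSp {p : ℕ} (A : Pl G p) : Prop := IsCpt A

/-- `K(i)_* (Φ^H A) = 0`. -/
def Vanish (I : IsSH T) (K : ℕ → Rg T) {p : ℕ} (A : Pl G p) (i : ℕ) : Prop :=
  ∀ Y, IsPhi H A.obj.as.obj Y → Nul (idt (tn (K i).ob (I.Lo Y)))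

/-- `K(n+r)_* (Φ^H A) = 0` implies `K(n)_* (Φ^G A) = 0` for all finite `p`-local `A`. -/
def Implies (I : IsSH T) (K : ℕ → Rg T) (p n r : ℕ) : Prop :=
  ∀ A : Pl G p, FinSp A → Vanish H I K A (n + r) → Vanish ⊤ I K A n

/-- The chromatic fixed point loss `r_n(G, H)`. -/
def rLoss (I : IsSH T) (K : ℕ → Rg T) (p n : ℕ) : ℕ := sInf {r | Implies H I K p n r}

end Vale.Agent.N241
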