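import Vale.Agent.N241.Ind
import Vale.Agent.P241Z.Reg

/-!
# The mapping cone of the transfer

For a finite `G`-set `I` the Pontryagin-Thom collapse onto small balls around the basis vectors of
the permutation representation `V` gives a `G`-map `S^V → S^V` whose restriction to the `H`-fixed
points induces the multiplication by the number of `H`-fixed points of `I`.
-/

open CategoryTheory MonoidalCategory Limits Pretriangulated OnePoint Topology Filter

noncomputable section

namespace Vale.Agent.N241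

open Vale.Agent.P251 Vale.Agent.P251.St Vale.Agent.P251.G Vale.Agent.P251.G.LC Vale.Agent.P251.I
open Vale.Agent.P241 Vale.Agent.P241.St Vale.Agent.P241.H486 Vale.Agent.P241.H32

theorem isOpenEmbedding_of_inv {A B : Type} [TopologicalSpace A] [TopologicalSpace B] {f : A → B}
    {g : B → A} {U : Set B} (hU : IsOpen U) (hf : Continuous f) (hg : ContinuousOn g U)
    (h1 : ∀ a, f a ∈ U) (h2 : ∀ a, g (f a) = a) (h3 : ∀ b ∈ U, f (g b) = b) : IsOpenEmbedding f :=
  OpenPartialHomeomorph.isOpenEmbedding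
    { toFun := f
      invFun := g
      source := Set.univ
      target := U
      map_source' := fun a _ => h1 a
      map_target' := fun _ _ => trivial
      left_inv' := fun a _ => h2 a
      right_inv' := h3
      open_source := isOpen_univ
      open_target := hU
      continuousOn_toFun := hf.continuousOn
      continuousOn_invFun := hg } rfl

section ball

variable {W : Type} [NormedAddCommGroup W] [NormedSpace ℝ W]

/-- shrinking to the ball of radius `1 / (2 s)` -/
def shr (s : ℝ) (v : W) : W := (1 + 2 * s * ‖v‖)⁻¹ • v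

/-- the inverse -/
def unshr (s : ℝ) (u : W) : W := (1 - 2 * s * ‖u‖)⁻¹ • u

variable {s : ℝ}

theorem norm_shr (hs : 0 ≤ s) (v : W) : ‖shr s v‖ = (1 + 2 * s * ‖v‖)⁻¹ * ‖v‖ := by
  rw [shr, norm_smul, Real.norm_of_nonneg (by positivity)]

theorem one_sub_shr (hs : 0 ≤ s) (v : W) : 1 - 2 * s * ‖shr s v‖ = (1 + 2 * s * ‖v‖)⁻¹ := by
  have h : (0 : ℝ) < 1 + 2 * s * ‖v‖ := by positivity
  rw [norm_shr hs]
  field_simp
  ring

theorem shr_lt (hs : 0 ≤ s) (v : W) : 2 * s * ‖shr s v‖ < 1 := by
  have h : (0 : ℝ) < (1 + 2 * s * ‖v‖)⁻¹ := by positivity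
  linarith [one_sub_shr hs v]

theorem unshr_shr (hs : 0 ≤ s) (v : W) : unshr s (shr s v) = v := by
  have h : (0 : ℝ) < 1 + 2 * s * ‖v‖ := by positivity
  rw [unshr, one_sub_shr hs, inv_inv, shr, smul_smul, mul_inv_cancel₀ h.ne', one_smul]

theorem shr_unshr {u : W} (h : 2 * s * ‖u‖ < 1) : shr s (unshr s u) = u := by
  have h1 : 0 < 1 - 2 * s * ‖u‖ := by linarith
  have h2 : 1 + 2 * s * ‖unshr s u‖ = (1 - 2 * s * ‖u‖)⁻¹ := by
    rw [unshr, norm_smul, Real.norm_of_nonneg (by positivity)]
    field_simp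
    ring
  rw [shr, h2, inv_inv, unshr, smul_smul, mul_inv_cancel₀ h1.ne', one_smul]

theorem continuous_shr {P : Type} [TopologicalSpace P] {s : P → ℝ} {v : P → W} (h : ∀ x, 0 ≤ s x)
    (hs : Continuous s) (hv : Continuous v) : Continuous fun x => shr (s x) (v x) :=
  (Continuous.inv₀ (by fun_prop) fun x => by have := h x; positivity).smul hv

theorem continuousOn_unshr {P : Type} [TopologicalSpace P] {s : P → ℝ} {v : P → W}
    (hs : Continuous s) (hv : Continuous v) :
    ContinuousOn (fun x => unshr (s x) (v x)) {x | 2 * s x * ‖v x‖ < 1} :=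
  (ContinuousOn.inv₀ (f := fun x => 1 - 2 * s x * ‖v x‖) (by fun_prop)
    fun x (hx : 2 * s x * ‖v x‖ < 1) => (sub_pos.2 hx).ne').smul hv.continuousOn

/-- the ball of radius `1 / 2` around `e` -/
def emb (e v : W) : W := e + shr 1 v

theorem isOpenEmbedding_emb (e : W) : IsOpenEmbedding (emb e) := by
  refine isOpenEmbedding_of_inv (g := fun w => unshr 1 (w - e)) (U := {w | 2 * 1 * ‖w - e‖ < 1})
    (isOpen_lt (by fun_prop) continuous_const)
    (continuous_const.add (continuous_shr (fun _ => zero_le_one) continuous_const continuous_id))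
    (continuousOn_unshr continuous_const (by fun_prop)) (fun v => ?_) (fun v => ?_) fun w hw => ?_
  · change 2 * 1 * ‖e + shr 1 v - e‖ < 1
    rw [add_sub_cancel_left]
    exact shr_lt zero_le_one v
  · rw [emb, add_sub_cancel_left, unshr_shr zero_le_one]
  · rw [emb, shr_unshr hw, add_sub_cancel]

/-- the isotopy from the identity to `emb e` -/
def embI (e : W) (x : W × unitInterval) : W × unitInterval :=
  ((x.2 : ℝ) • e + shr x.2 x.1, x.2)

theorem isOpenEmbedding_embI (e : W) : IsOpenEmbedding (embI e) := by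
  refine isOpenEmbedding_of_inv (g := fun w => (unshr w.2 (w.1 - (w.2 : ℝ) • e), w.2))
    (U := {w | 2 * (w.2 : ℝ) * ‖w.1 - (w.2 : ℝ) • e‖ < 1})
    (isOpen_lt (by fun_prop) continuous_const)
    ((Continuous.add (by fun_prop) (continuous_shr (fun x => x.2.2.1) (by fun_prop)
      continuous_fst)).prodMk continuous_snd)
    ((continuousOn_unshr (by fun_prop) (by fun_prop)).prodMk continuous_snd.continuousOn)
    (fun v => ?_) (fun v => ?_) fun w hw => ?_
  · change 2 * (v.2 : ℝ) * ‖(v.2 : ℝ) • e + shr v.2 v.1 - (v.2 : ℝ) • e‖ < 1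
    rw [add_sub_cancel_left]
    exact shr_lt v.2.2.1 _
  · refine Prod.ext ?_ rfl
    change unshr v.2 ((v.2 : ℝ) • e + shr v.2 v.1 - (v.2 : ℝ) • e) = v.1
    rw [add_sub_cancel_left, unshr_shr v.2.2.1]
  · refine Prod.ext ?_ rfl
    change (w.2 : ℝ) • e + shr w.2 (unshr w.2 (w.1 - (w.2 : ℝ) • e)) = w.1
    rw [shr_unshr hw, add_sub_cancel]

theorem emb_disj {e e' v v' : W} (h : emb e v = emb e' v') : ‖e - e'‖ < 1 := by
  have h1 : e - e' = shr 1 v' - shr 1 v := by
    rw [sub_eq_sub_iff_add_eq_add, add_comm (shr 1 v')]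
    exact h
  have h2 := norm_sub_le (shr 1 v') (shr 1 v)
  rw [h1]
  linarith [shr_lt zero_le_one v, shr_lt zero_le_one v']

variable [LocallyCompactSpace W]

/-- the collapse onto the ball around `e` -/
def col (e : W) : LC.of W ⟶ LC.of W :=
  ofOpen (X := LC.of W) (Y := LC.of W) (emb e) (isOpenEmbedding_emb e)

theorem col_emb (e v : W) : app (col e) (emb e v : W) = (v : OnePoint W) :=
  app_ofOpen_coe (X := LC.of W) (Y := LC.of W) (emb e) (isOpenEmbedding_emb e) v

theorem of_col {e : W} {x : OnePoint W} (h : app (col e) x ≠ ∞) : ∃ v, x = (emb e v : W) :=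
  mem_range_of_ne (X := LC.of W) (Y := LC.of W) (isOpenEmbedding_emb e) h

theorem homotopic_col (e : W) : LC.Homotopic (𝟙 (LC.of W)) (col e) := by
  let q : LC.of (W × unitInterval) ⟶ LC.of W :=
    ofProper (X := LC.of (W × unitInterval)) (Y := LC.of W) Prod.fst continuous_fst
      (isProperMap_iff_tendsto_cocompact.1 isProperMap_fst_of_compactSpace).2
  let c : LC.of (W × unitInterval) ⟶ LC.of (W × unitInterval) :=
    ofOpen (X := LC.of (W × unitInterval)) (Y := LC.of (W × unitInterval)) (embI e)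
      (isOpenEmbedding_embI e)
  have hc : ∀ x, app c (embI e x : W × unitInterval) = (x : OnePoint (W × unitInterval)) :=
    app_ofOpen_coe (X := LC.of (W × unitInterval)) (Y := LC.of (W × unitInterval)) _
      (isOpenEmbedding_embI e)
  refine ⟨c ≫ q, hom_ext fun (v : W) => ?_, hom_ext fun (w : W) => ?_⟩
  · have h1 : embI e (v, 0) = (v, 0) := by simp [embI, shr]
    change app q (app c ((v, 0) : W × unitInterval)) = _
    rw [← h1, hc]
    rfl
  · change app q (app c ((w, 1) : W × unitInterval)) = _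
    by_cases h : w ∈ Set.range (emb e)
    · obtain ⟨v, rfl⟩ := h
      have h1 : embI e (v, 1) = (emb e v, 1) := by simp [embI, emb]
      rw [← h1, hc, col_emb]
      rfl
    · have h1 : ((w, 1) : W × unitInterval) ∉ Set.range (embI e) := by
        rintro ⟨⟨v, t⟩, hv⟩
        obtain rfl : t = 1 := congrArg Prod.snd hv
        exact h ⟨v, by simpa [embI, emb] using congrArg Prod.fst hv⟩
      refine Eq.trans (congrArg (app q) (app_ofOpen_of_notMem (X := LC.of (W × unitInterval))
        (Y := LC.of (W × unitInterval)) _ (isOpenEmbedding_embI e) h1)) ?_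
      exact (app_infty q).trans (app_ofOpen_of_notMem (X := LC.of W) (Y := LC.of W) _
        (isOpenEmbedding_emb e) h).symm

theorem col_disj {D : Type} {e : D → W} (he : ∀ t t', ‖e t - e t'‖ < 1 → t = t')
    (x : OnePoint W) (t t' : D) (h : app (col (e t)) x ≠ ∞) (h' : app (col (e t')) x ≠ ∞) :
    t = t' := by
  obtain ⟨v, hv⟩ := of_col h
  obtain ⟨v', hv'⟩ := of_col h'
  exact he t t' (emb_disj (OnePoint.coe_injective (hv.symm.trans hv')))

theorem isSum_col {D : Type} [Fintype D] {e : D → W} {F : LC.of W ⟶ LC.of W}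
    (h1 : ∀ t v, app F (emb (e t) v : W) = (v : OnePoint W))
    (h2 : ∀ w : W, (∀ t v, emb (e t) v ≠ w) → app F (w : OnePoint W) = ∞) :
    IsSum Finset.univ (fun t => col (e t)) F := by
  refine fun x => ⟨fun t _ hx => ?_, fun hx => ?_⟩
  · obtain ⟨v, rfl⟩ := of_col hx
    rw [h1, col_emb]
  · induction x using OnePoint.rec with
    | infty => exact app_infty F
    | coe w =>
      refine h2 w fun t v hv => ?_
      have h3 := hx t (Finset.mem_univ t)
      rw [← hv, col_emb] at h3
      exact OnePoint.coe_ne_infty _ h3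

/-- The collapse onto `d` disjoint balls induces the multiplication by `d`. -/
theorem map_col {D : Type} [Fintype D] {e : D → W} (he : ∀ t t', ‖e t - e t'‖ < 1 → t = t')
    {F : LC.of W ⟶ LC.of W} (h : IsSum Finset.univ (fun t => col (e t)) F) {T : SHCat} (S : Susp T)
    (hW : St.FC (ofLC (LC.of W))) : S.mapL F = Fintype.card D • 𝟙 _ := by
  rw [h.map (col_disj he) S hW hW, ← Finset.card_univ, ← Finset.sum_const]
  refine Finset.sum_congr rfl fun t _ => ?_
  rw [← H399.mapL_id S hW]
  exact (S.toSpaceFunctor.map_eq (X := ⟨_, fc_toLC hW⟩) (Y := ⟨_, fc_toLC hW⟩) (FCat.hom _)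
    (FCat.hom _) (homotopic_col (e t))).symm

end ball

open P241Z Geo

variable {G : Type} [Group G] {I : Type} [Fintype I] [DecidableEq I] [MulAction G I]

/-- the action on functions -/
def mv (g : G) (x : I → ℝ) : I → ℝ := fun i => x (g⁻¹ • i)

omit [DecidableEq I] in
theorem norm_mv (g : G) (x : I → ℝ) : ‖mv g x‖ = ‖x‖ :=
  (MulAction.toPerm g⁻¹).surjective.pi_norm_comp x

theorem mv_emb (g : G) (t : I) (v : I → ℝ) :
    mv g (emb (Pi.single t 1) v) = emb (Pi.single (g • t) 1) (mv g v) := by
  funext i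
  simp only [emb, shr, norm_mv, mv, Pi.add_apply, Pi.smul_apply, Pi.single_apply,
    inv_smul_eq_iff]

theorem single_far (t t' : I) (h : ‖(Pi.single t 1 - Pi.single t' 1 : I → ℝ)‖ < 1) : t = t' := by
  by_contra h1
  have h2 := norm_le_pi_norm (Pi.single t 1 - Pi.single t' 1 : I → ℝ) t
  rw [Pi.sub_apply, Pi.single_eq_same, Pi.single_eq_of_ne h1, sub_zero, norm_one] at h2
  linarith

variable (I) in
/-- the fixed points as a subspace -/
def Fx (H : Subgroup G) : Submodule ℝ (I → ℝ) where
  carrier := MulAction.fixedPoints H (Fn I)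
  add_mem' ha hb h := funext fun i =>
    congrArg₂ (· + ·) (congrFun (ha h) i) (congrFun (hb h) i)
  zero_mem' _ := rfl
  smul_mem' c _ ha h := funext fun i => congrArg (c * ·) (congrFun (ha h) i)

/-- **The mapping cone of the transfer.** -/
theorem exists_cone [Finite G] : ∃ Y : GSpace G, GFC G Y ∧ ∀ (H : Subgroup G) (T : SHCat)
    (S : Susp T), H399.IsConeOf
      (Nat.card (MulAction.fixedPoints H I) • 𝟙 (S.obj ((perm G I).fix H))) (S.obj (Y.fix H)) := by
  obtain ⟨F, hF, -⟩ := exists_isSum (fun t : I => col (Pi.single t 1 : I → ℝ))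
    (col_disj single_far) Finset.univ
  have h1 : ∀ (t : I) (v : I → ℝ), app F (emb (Pi.single t 1) v : I → ℝ) =
      (v : OnePoint (I → ℝ)) := fun t v =>
    ((hF _).1 t (Finset.mem_univ t) (by rw [col_emb]; exact OnePoint.coe_ne_infty _)).trans
      (col_emb _ v)
  have h2 : ∀ w : I → ℝ, (∀ (t : I) v, emb (Pi.single t 1) v ≠ w) →
      app F (w : OnePoint (I → ℝ)) = ∞ := fun w hw => (hF _).2 fun t _ => by
    by_contra h3
    obtain ⟨v, hv⟩ := of_col h3
    exact hw t v (OnePoint.coe_injective hv).symm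
  let f : L (perm G I) ⟶ L (perm G I) := F
  have hf : Eqv f := by
    refine (isGMap_iff f).1 fun g x => ?_
    induction x using OnePoint.rec with
    | infty => exact (app_infty f).trans (congrArg ((perm G I).smul g) (app_infty f).symm)
    | coe w =>
      change app F (mv g w : I → ℝ) = (perm G I).smul g (app F (show I → ℝ from w))
      by_cases h3 : ∃ (t : I) (v : I → ℝ), emb (Pi.single t 1) v = w
      · obtain ⟨t, v, rfl⟩ := h3
        rw [mv_emb, h1, h1]
        rfl
      · rw [h2 w fun t v hv => h3 ⟨t, v, hv⟩]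
        refine h2 _ fun t v hv => h3 ⟨g⁻¹ • t, mv g⁻¹ v, ?_⟩
        rw [← mv_emb, hv]
        funext i
        simp [mv]
  have hY := gfc_gcone' f hf gfc_perm (gfc_xt gfc_perm H399.fc_Rr)
  refine ⟨_, hY, fun H T S => ?_⟩
  have hV := fc_fix (gfc_perm (G := G) (I := I)) H
  have h4 := isConeOf_fix f hf S H hV hV (fc_fix hY H)
  have := Fintype.ofFinite (MulAction.fixedPoints H I)
  have : LocallyCompactSpace (Fx I H) := (perm G I).lc_fixedPoints H
  let e : MulAction.fixedPoints H I → Fx I H := fun t => ⟨Pi.single t.1 1, fun h => funext fun i => by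
    change (Pi.single t.1 1 : I → ℝ) ((h : G)⁻¹ • i) = (Pi.single t.1 1 : I → ℝ) i
    have h5 : (h : G) • t.1 = t.1 := t.2 h
    simp only [Pi.single_apply, inv_smul_eq_iff, h5]⟩
  have hι : ∀ x, app (fixι (perm G I) H) (app (fixMap f hf H) x) =
      app F (app (fixι (perm G I) H) x) := fun x =>
    congrArg (fun k => app k x) (fixMap_ι f hf H)
  have h6 := map_col (W := Fx I H) (e := e) (fun t t' h => Subtype.ext (single_far _ _ h))
    (F := fixMap f hf H) (isSum_col (fun t v => ?_) fun w hw => ?_) S hV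
  · rw [Nat.card_eq_fintype_card]
    exact h6 ▸ h4
  · exact injective_fixι _ H ((hι _).trans (h1 t.1 v.1))
  · refine injective_fixι _ H ((hι _).trans ((h2 w.1 fun t v hv => ?_).trans (app_infty _).symm))
    have h7 : ∀ h ∈ H, emb (Pi.single (h • t) 1) (mv h v) = emb (Pi.single t 1 : I → ℝ) v := by
      intro h hh
      rw [← mv_emb, hv]
      exact w.2 ⟨h, hh⟩
    have h8 : ∀ h ∈ H, h • t = t := fun h hh => single_far _ _ (emb_disj (h7 h hh))
    refine hw ⟨t, fun h => h8 h.1 h.2⟩ ⟨v, fun h => ?_⟩ (Subtype.ext hv)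
    have h9 := h7 h.1 h.2
    rw [h8 h.1 h.2] at h9
    exact (isOpenEmbedding_emb (W := I → ℝ) _).injective h9

end Vale.Agent.N241
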